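import Vale.Agent.P225.Core

/-!
P225, assembly: in each weight block the vectors orthogonal to the zonal vector, and an orthonormal
basis of them. They have codimension one in the block, as the zonal vector generates.
-/

namespace Vale.Agent.P225

open scoped RealInnerProductSpace

noncomputable section

namespace Harm

variable (H : Harm) (j m : ℕ)

lemma eigen_coord (v : V j) (i : Fin ((j + 1) ^ 2)) :
    (H.ER j 0 (H.ER j 0 v)) i = -((H.wt j i : ℝ) ^ 2) * v i := by
  have h : ⟪EuclideanSpace.single i (1 : ℝ), H.ER j 0 (H.ER j 0 v)⟫ =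
      ⟪H.ER j 0 (H.ER j 0 (EuclideanSpace.single i (1 : ℝ))), v⟫ := by
    rw [H.skew_right, H.skew_right, neg_neg]
  rw [H.wt_eigen, real_inner_smul_left, EuclideanSpace.inner_single_left,
    EuclideanSpace.inner_single_left] at h
  simpa using h

lemma block_apply (v : V j) (i : Fin ((j + 1) ^ 2)) :
    H.block j m v i = if H.wt j i = m then v i else 0 := by
  simp [Harm.block, EuclideanSpace.inner_single_left, Finset.sum_apply, Pi.single_apply]

/-- The projection to a block commutes with the left fields. -/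
lemma block_comm_left (k : Fin 3) (v : V j) :
    H.block j m (H.EL j k v) = H.EL j k (H.block j m v) := by
  -- the left fields preserve each eigenspace of `ER₀²`
  have key : ∀ (w : V j) (r : ℕ), (∀ i, H.wt j i ≠ r → w i = 0) →
      ∀ i, H.wt j i ≠ r → (H.EL j k w) i = 0 := by
    intro w r hw i hi
    have h1 : H.ER j 0 (H.ER j 0 w) = (-((r : ℝ) ^ 2)) • w := by
      ext i'
      rw [H.eigen_coord]
      by_cases h : H.wt j i' = r
      · simp [h]
      · simp [hw i' h]
    have h2 := congrArg (fun z : V j => z i)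
      (show H.ER j 0 (H.ER j 0 (H.EL j k w)) = (-((r : ℝ) ^ 2)) • H.EL j k w by
        rw [← H.comm, ← H.comm, h1, map_smul])
    simp only [H.eigen_coord, PiLp.smul_apply, smul_eq_mul] at h2
    have hne : ((H.wt j i : ℝ) ^ 2) ≠ (r : ℝ) ^ 2 := by
      intro h
      exact hi (by exact_mod_cast
        (pow_left_inj₀ (Nat.cast_nonneg _) (Nat.cast_nonneg _) two_ne_zero).1 h)
    have : ((r : ℝ) ^ 2 - (H.wt j i : ℝ) ^ 2) * (H.EL j k w) i = 0 := by linarith
    exact (mul_eq_zero.1 this).resolve_left (sub_ne_zero.2 (Ne.symm hne))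
  ext i
  rw [H.block_apply]
  have hsplit : H.EL j k v = H.EL j k (H.block j m v) + H.EL j k (v - H.block j m v) := by
    rw [← map_add]; simp
  split_ifs with h
  · have hz : (H.EL j k (v - H.block j m v)) i = 0 := by
      by_contra hne
      -- decompose the rest by weights
      have hrest : v - H.block j m v = ∑ i' ∈ Finset.univ.filter (fun i' => H.wt j i' ≠ m),
          v i' • EuclideanSpace.single i' (1 : ℝ) := by
        ext i''
        simp [H.block_apply, Finset.sum_apply, Pi.single_apply]
        split_ifs <;> simp_all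
      apply hne
      rw [hrest, map_sum]
      simp only [WithLp.ofLp_sum, Finset.sum_apply]
      refine Finset.sum_eq_zero fun i' hi' => ?_
      rw [map_smul, PiLp.smul_apply]
      rw [key (EuclideanSpace.single i' (1 : ℝ)) (H.wt j i')
        (fun l hl => by simp [show l ≠ i' from fun e => hl (by rw [e])]) i
        (by rw [h]; exact fun e => (Finset.mem_filter.1 hi').2 e.symm), smul_zero]
    have e := congrArg (fun z : V j => z i) hsplit
    simp only [PiLp.add_apply] at e
    linarith
  · exact (key _ m (fun l hl => by rw [H.block_apply, if_neg hl]) i h).symm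

/-- The span of the basis vectors of weight `m`. -/
def blockSpace : Submodule ℝ (V j) :=
  Submodule.span ℝ (Set.range fun i : {i // H.wt j i = m} => EuclideanSpace.single i.1 (1 : ℝ))

lemma mem_blockSpace {v : V j} : v ∈ H.blockSpace j m ↔ ∀ i, H.wt j i ≠ m → v i = 0 := by
  constructor
  · intro hv i hi
    induction hv using Submodule.span_induction with
    | mem x hx =>
      obtain ⟨⟨l, hl⟩, rfl⟩ := hx
      simp [show i ≠ l from fun e => hi (by rw [e]; exact hl)]
    | zero => simp
    | add x y _ _ hx hy => simp [hx, hy]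
    | smul c x _ hx => simp [hx]
  · intro hv
    have e : v = ∑ i, v i • EuclideanSpace.single i (1 : ℝ) := by
      ext l; simp [Finset.sum_apply, Pi.single_apply]
    rw [e]
    refine Submodule.sum_mem _ fun i _ => ?_
    by_cases hi : H.wt j i = m
    · exact Submodule.smul_mem _ _ (Submodule.subset_span ⟨⟨i, hi⟩, rfl⟩)
    · simp [hv i hi]

lemma block_mem (v : V j) : H.block j m v ∈ H.blockSpace j m :=
  (H.mem_blockSpace j m).2 fun i hi => by rw [H.block_apply, if_neg hi]

lemma finrank_blockSpace (hm : m ≤ j) (hp : m % 2 = j % 2) :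
    Module.finrank ℝ (H.blockSpace j m) = if m = 0 then j + 1 else 2 * (j + 1) := by
  rw [blockSpace, finrank_span_eq_card, Fintype.card_subtype, H.wt_card j m hm hp]
  have h := ((EuclideanSpace.basisFun (Fin ((j + 1) ^ 2)) ℝ).orthonormal.comp _
    (Subtype.val_injective (p := fun i => H.wt j i = m))).linearIndependent
  simpa [Function.comp_def] using h

/-- No block is orthogonal to the zonal vector. -/
lemma block_zonal_ne (hm : m ≤ j) (hp : m % 2 = j % 2) : H.block j m (H.zonal j) ≠ 0 := by
  intro h
  have h0 := H.cyclic j (H.block j m) (fun k v => H.block_comm_left j m k v) h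
  have hc := H.wt_card j m hm hp
  obtain ⟨i, hi⟩ : (Finset.univ.filter fun i => H.wt j i = m).Nonempty := by
    rw [← Finset.card_pos, hc]; split_ifs <;> omega
  have h1 := congrArg (fun A : Op j j => A (EuclideanSpace.single i 1) i) h0
  simp [H.block_apply, (Finset.mem_filter.1 hi).2] at h1

/-- The vectors of a block orthogonal to the zonal vector. -/
def orthBlock : Submodule ℝ (V j) :=
  (Submodule.span ℝ {H.block j m (H.zonal j)})ᗮ ⊓ H.blockSpace j m

lemma mem_orthBlock {v : V j} :
    v ∈ H.orthBlock j m ↔ (∀ i, H.wt j i ≠ m → v i = 0) ∧ ⟪H.zonal j, v⟫ = 0 := by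
  rw [orthBlock, Submodule.mem_inf, Submodule.mem_orthogonal_singleton_iff_inner_right,
    H.mem_blockSpace]
  have e : (∀ i, H.wt j i ≠ m → v i = 0) → ⟪H.block j m (H.zonal j), v⟫ = ⟪H.zonal j, v⟫ :=
    fun hv => by
      simp only [PiLp.inner_apply, H.block_apply]
      refine Finset.sum_congr rfl fun i _ => ?_
      by_cases hi : H.wt j i = m
      · simp [hi]
      · simp [hi, hv i hi]
  exact ⟨fun h => ⟨h.2, e h.2 ▸ h.1⟩, fun h => ⟨(e h.1).trans h.2, h.1⟩⟩

lemma finrank_orthBlock (hm : m ≤ j) (hp : m % 2 = j % 2) :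
    Module.finrank ℝ (H.orthBlock j m) = (if m = 0 then j + 1 else 2 * (j + 1)) - 1 := by
  have hle : Submodule.span ℝ {H.block j m (H.zonal j)} ≤ H.blockSpace j m :=
    Submodule.span_le.2 (Set.singleton_subset_iff.2 (H.block_mem j m _))
  have h := Submodule.finrank_add_inf_finrank_orthogonal hle
  rw [finrank_span_singleton (H.block_zonal_ne j m hm hp), H.finrank_blockSpace j m hm hp] at h
  rw [orthBlock]
  omega

/-- An orthonormal basis of `orthBlock`, indexed by numbers, zero beyond the dimension. -/
def blockVec (i : ℕ) : V j :=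
  if h : i < Module.finrank ℝ (H.orthBlock j m) then
    ((stdOrthonormalBasis ℝ (H.orthBlock j m)) ⟨i, h⟩ : V j) else 0

lemma blockVec_mem (i : ℕ) : H.blockVec j m i ∈ H.orthBlock j m := by
  unfold blockVec
  split_ifs
  · exact Subtype.coe_prop _
  · exact zero_mem _

lemma inner_zonal_blockVec (i : ℕ) : ⟪H.zonal j, H.blockVec j m i⟫ = 0 :=
  ((H.mem_orthBlock j m).1 (H.blockVec_mem j m i)).2

lemma block_blockVec (i : ℕ) : H.block j m (H.blockVec j m i) = H.blockVec j m i := by
  ext l
  rw [H.block_apply]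
  split_ifs with h
  · rfl
  · exact (((H.mem_orthBlock j m).1 (H.blockVec_mem j m i)).1 l h).symm

lemma eigen_blockVec (i : ℕ) :
    H.ER j 0 (H.ER j 0 (H.blockVec j m i)) = (-((m : ℝ) ^ 2)) • H.blockVec j m i := by
  ext l
  rw [H.eigen_coord]
  by_cases h : H.wt j l = m
  · simp [h]
  · simp [((H.mem_orthBlock j m).1 (H.blockVec_mem j m i)).1 l h]

lemma inner_blockVec {i i' : ℕ} (hi : i < Module.finrank ℝ (H.orthBlock j m))
    (hi' : i' < Module.finrank ℝ (H.orthBlock j m)) :
    ⟪H.blockVec j m i, H.blockVec j m i'⟫ = if i = i' then 1 else 0 := by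
  simp only [blockVec, dif_pos hi, dif_pos hi', ← Submodule.coe_inner]
  rw [(stdOrthonormalBasis ℝ (H.orthBlock j m)).inner_eq_ite]
  simp [Fin.ext_iff]

lemma inner_blockVec_ne {m' : ℕ} (h : m ≠ m') (i i' : ℕ) :
    ⟪H.blockVec j m i, H.blockVec j m' i'⟫ = 0 := by
  rw [PiLp.inner_apply]
  refine Finset.sum_eq_zero fun l _ => ?_
  by_cases hl : H.wt j l = m
  · simp [((H.mem_orthBlock j m').1 (H.blockVec_mem j m' i')).1 l (by rw [hl]; exact h)]
  · simp [((H.mem_orthBlock j m).1 (H.blockVec_mem j m i)).1 l hl]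

/-- Every block vector orthogonal to the zonal one is a combination of the basis. -/
lemma mem_span_blockVec {v : V j} (hv : ∀ i, H.wt j i ≠ m → v i = 0)
    (hz : ⟪H.zonal j, v⟫ = 0) :
    v ∈ Submodule.span ℝ
      (H.blockVec j m '' Set.Iio (Module.finrank ℝ (H.orthBlock j m))) := by
  set b := stdOrthonormalBasis ℝ (H.orthBlock j m)
  have h := b.sum_repr ⟨v, (H.mem_orthBlock j m).2 ⟨hv, hz⟩⟩
  have h' := congrArg Subtype.val h
  simp only [Submodule.coe_sum, Submodule.coe_smul] at h'
  rw [← h']
  refine Submodule.sum_mem _ fun i _ => Submodule.smul_mem _ _ (Submodule.subset_span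
    ⟨i.1, i.2, ?_⟩)
  simp [blockVec, b]

end Harm

end

end Vale.Agent.P225
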