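import Vale.Agent.P225.Assembly.BlockBasis

/-!
P225, assembly: the vectors of a family of labels (degree, weight, index) and the linear maps from
label space to the coefficient spaces of the degrees.
-/

namespace Vale.Agent.P225

open scoped RealInnerProductSpace

noncomputable section

/-- Labels: degree, weight and index inside the weight block. -/
structure Labelling (ι : Type) where
  /-- Degree. -/
  deg : ι → ℕ
  /-- Weight. -/
  wt : ι → ℕ
  /-- Index in the block. -/
  idx : ι → ℕ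
  wt_le : ∀ a, wt a ≤ deg a
  wt_parity : ∀ a, wt a % 2 = deg a % 2
  idx_lt : ∀ a, idx a < (if wt a = 0 then deg a + 1 else 2 * (deg a + 1)) - 1
  inj : ∀ a b, deg a = deg b → wt a = wt b → idx a = idx b → a = b

namespace Labelling

variable {ι : Type} (L : Labelling ι) (H : Harm)

/-- The vector of a label in degree `j`: zero in the other degrees. -/
def vec (j : ℕ) (a : ι) : V j := if L.deg a = j then H.blockVec j (L.wt a) (L.idx a) else 0

lemma vec_eq {j : ℕ} {a : ι} (h : L.deg a = j) :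
    L.vec H j a = H.blockVec j (L.wt a) (L.idx a) := if_pos h

lemma vec_of_ne {j : ℕ} {a : ι} (h : L.deg a ≠ j) : L.vec H j a = 0 := if_neg h

lemma idx_lt_finrank {j : ℕ} {a : ι} (h : L.deg a = j) :
    L.idx a < Module.finrank ℝ (H.orthBlock j (L.wt a)) := by
  subst h
  rw [H.finrank_orthBlock _ _ (L.wt_le a) (L.wt_parity a)]
  exact L.idx_lt a

lemma inner_vec [DecidableEq ι] (j : ℕ) (a b : ι) :
    ⟪L.vec H j a, L.vec H j b⟫ = if a = b ∧ L.deg a = j then 1 else 0 := by
  by_cases ha : L.deg a = j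
  · by_cases hb : L.deg b = j
    · rw [L.vec_eq H ha, L.vec_eq H hb]
      by_cases hw : L.wt a = L.wt b
      · rw [hw, H.inner_blockVec _ _ (hw ▸ L.idx_lt_finrank H ha) (L.idx_lt_finrank H hb)]
        by_cases hi : L.idx a = L.idx b
        · rw [if_pos hi, if_pos ⟨L.inj a b (ha.trans hb.symm) hw hi, ha⟩]
        · rw [if_neg hi, if_neg (fun h => hi (by rw [h.1]))]
      · rw [H.inner_blockVec_ne _ _ hw, if_neg (fun h => hw (by rw [h.1]))]
    · rw [L.vec_of_ne H hb, inner_zero_right, if_neg (fun h : a = b ∧ L.deg a = j => hb (h.1 ▸ ha))]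
  · rw [L.vec_of_ne H ha, inner_zero_left, if_neg (fun h => ha h.2)]

lemma norm_vec {j : ℕ} {a : ι} (h : L.deg a = j) : ‖L.vec H j a‖ = 1 := by
  classical
  have e := L.inner_vec H j a a
  rw [if_pos ⟨rfl, h⟩, real_inner_self_eq_norm_sq] at e
  exact (sq_eq_one_iff.1 e).resolve_right (by linarith [norm_nonneg (L.vec H j a)])

lemma orthonormal_vec (j : ℕ) :
    Orthonormal ℝ fun a : {a // L.deg a = j} => L.vec H j a.1 := by
  classical
  rw [orthonormal_iff_ite]
  intro a b
  rw [L.inner_vec]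
  by_cases h : a = b
  · simp [h, b.2]
  · simp [h, Subtype.val_injective.ne h]

lemma inner_zonal_vec (j : ℕ) (a : ι) : ⟪H.zonal j, L.vec H j a⟫ = 0 := by
  unfold vec
  split_ifs
  · exact H.inner_zonal_blockVec j _ _
  · exact inner_zero_right _

lemma eigen_vec (j : ℕ) (a : ι) :
    H.ER j 0 (H.ER j 0 (L.vec H j a)) = (-((L.wt a : ℝ) ^ 2)) • L.vec H j a := by
  unfold vec
  split_ifs
  · exact H.eigen_blockVec j _ _
  · simp

lemma block_vec (j : ℕ) (a : ι) : H.block j (L.wt a) (L.vec H j a) = L.vec H j a := by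
  unfold vec
  split_ifs
  · exact H.block_blockVec j _ _
  · simp

/-- The span of the label vectors of degree `j`. -/
def space (j : ℕ) : Submodule ℝ (V j) := Submodule.span ℝ (Set.range (L.vec H j))

lemma vec_mem_space (j : ℕ) (a : ι) : L.vec H j a ∈ L.space H j :=
  Submodule.subset_span ⟨a, rfl⟩

lemma inner_zonal_space {j : ℕ} {v : V j} (hv : v ∈ L.space H j) : ⟪H.zonal j, v⟫ = 0 := by
  induction hv using Submodule.span_induction with
  | mem x hx => obtain ⟨a, rfl⟩ := hx; exact L.inner_zonal_vec H j a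
  | zero => exact inner_zero_right _
  | add x y _ _ hx hy => rw [inner_add_right, hx, hy, add_zero]
  | smul c x _ hx => rw [inner_smul_right, hx, mul_zero]

/-- With all labels of a block present, its vectors orthogonal to the zonal one are in the span. -/
lemma block_mem_space {j m : ℕ} (hm : m ≤ j) (hp : m % 2 = j % 2)
    (hall : ∀ i, i < (if m = 0 then j + 1 else 2 * (j + 1)) - 1 →
      ∃ a, L.deg a = j ∧ L.wt a = m ∧ L.idx a = i)
    {v : V j} (hv : ∀ i, H.wt j i ≠ m → v i = 0) (hz : ⟪H.zonal j, v⟫ = 0) :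
    v ∈ L.space H j := by
  refine Submodule.span_le.2 ?_ (H.mem_span_blockVec j m hv hz)
  rintro _ ⟨i, hi, rfl⟩
  rw [Set.mem_Iio, H.finrank_orthBlock j m hm hp] at hi
  obtain ⟨a, hd, hw, hi'⟩ := hall i hi
  rw [← hw, ← hi', ← L.vec_eq H hd]
  exact L.vec_mem_space H j a

variable [Fintype ι]

/-- Coefficients of degree `j` of a combination of labels. -/
def map (j : ℕ) : EuclideanSpace ℝ ι →L[ℝ] V j :=
  ∑ a, (EuclideanSpace.proj (𝕜 := ℝ) a).smulRight (L.vec H j a)

lemma map_apply (j : ℕ) (x : EuclideanSpace ℝ ι) :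
    L.map H j x = ∑ a, x a • L.vec H j a := by
  simp [map]

lemma map_single [DecidableEq ι] (j : ℕ) (a : ι) :
    L.map H j (EuclideanSpace.single a 1) = L.vec H j a := by
  simp [map_apply]

lemma inner_vec_map {j : ℕ} {a : ι} (h : L.deg a = j) (x : EuclideanSpace ℝ ι) :
    ⟪L.vec H j a, L.map H j x⟫ = x a := by
  classical
  simp [map_apply, inner_sum, inner_smul_right, L.inner_vec, h]

lemma map_mem_space (j : ℕ) (x : EuclideanSpace ℝ ι) : L.map H j x ∈ L.space H j := by
  rw [map_apply]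
  exact Submodule.sum_mem _ fun a _ => Submodule.smul_mem _ _ (L.vec_mem_space H j a)

lemma norm_map_apply_le (j : ℕ) (x : EuclideanSpace ℝ ι) : ‖L.map H j x‖ ≤ ‖x‖ := by
  classical
  refine (pow_le_pow_iff_left₀ (norm_nonneg _) (norm_nonneg _) two_ne_zero).1 ?_
  rw [EuclideanSpace.norm_sq_eq x, ← real_inner_self_eq_norm_sq]
  nth_rw 1 [map_apply]
  rw [sum_inner]
  refine Finset.sum_le_sum fun a _ => ?_
  rw [real_inner_smul_left, Real.norm_eq_abs, sq_abs]
  by_cases h : L.deg a = j
  · rw [L.inner_vec_map H h, sq]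
  · rw [L.vec_of_ne H h, inner_zero_left, mul_zero]
    exact sq_nonneg _

lemma norm_map_le (j : ℕ) : ‖L.map H j‖ ≤ 1 :=
  ContinuousLinearMap.opNorm_le_bound _ zero_le_one fun x => by
    rw [one_mul]; exact L.norm_map_apply_le H j x

/-- The degrees together determine the combination. -/
lemma eq_zero_of_map (x : EuclideanSpace ℝ ι) (h : ∀ a, L.map H (L.deg a) x = 0) : x = 0 := by
  ext a
  rw [← L.inner_vec_map H rfl x, h a, inner_zero_right]
  rfl

lemma sum_norm_map_sq (J : ℕ) (hJ : ∀ a, L.deg a < J) (x : EuclideanSpace ℝ ι) :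
    ∑ j ∈ Finset.range J, ‖L.map H j x‖ ^ 2 = ‖x‖ ^ 2 := by
  classical
  have e : ∀ j, ‖L.map H j x‖ ^ 2 = ∑ a, if L.deg a = j then x a ^ 2 else 0 := fun j => by
    rw [← real_inner_self_eq_norm_sq]
    nth_rw 1 [map_apply]
    rw [sum_inner]
    refine Finset.sum_congr rfl fun a _ => ?_
    rw [real_inner_smul_left]
    split_ifs with h
    · rw [L.inner_vec_map H h, sq]
    · rw [L.vec_of_ne H h, inner_zero_left, mul_zero]
  simp only [e]
  rw [Finset.sum_comm, EuclideanSpace.norm_sq_eq]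
  refine Finset.sum_congr rfl fun a _ => ?_
  rw [Finset.sum_ite_eq, if_pos (Finset.mem_range.2 (hJ a)), Real.norm_eq_abs, sq_abs]

/-- Numbering of label space. -/
def iso : EuclideanSpace ℝ (Fin (Fintype.card ι)) ≃ₗᵢ[ℝ] EuclideanSpace ℝ ι :=
  LinearIsometryEquiv.piLpCongrLeft 2 ℝ ℝ (Fintype.equivFin ι).symm

/-- `map` on numbered coordinates. -/
def mapFin (j : ℕ) : EuclideanSpace ℝ (Fin (Fintype.card ι)) →L[ℝ] V j :=
  (L.map H j).comp (iso (ι := ι)).toContinuousLinearEquiv.toContinuousLinearMap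

lemma mapFin_apply (j : ℕ) (x : EuclideanSpace ℝ (Fin (Fintype.card ι))) :
    L.mapFin H j x = L.map H j (iso x) := rfl

lemma mapFin_single [DecidableEq ι] (j : ℕ) (a : ι) :
    L.mapFin H j (EuclideanSpace.single (Fintype.equivFin ι a) 1) = L.vec H j a := by
  rw [mapFin_apply, iso, EuclideanSpace.piLpCongrLeft_single, L.map_single]
  simp

lemma norm_mapFin_le (j : ℕ) : ‖L.mapFin H j‖ ≤ 1 :=
  ContinuousLinearMap.opNorm_le_bound _ zero_le_one fun x => by
    rw [one_mul, mapFin_apply]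
    exact (L.norm_map_apply_le H j _).trans (LinearIsometryEquiv.norm_map _ x).le

lemma eq_zero_of_mapFin (x : EuclideanSpace ℝ (Fin (Fintype.card ι)))
    (h : ∀ a, L.mapFin H (L.deg a) x = 0) : x = 0 :=
  (iso (ι := ι)).injective ((L.eq_zero_of_map H _ h).trans (map_zero _).symm)

end Labelling

end

end Vale.Agent.P225
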