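import Vale.Agent.P225.Sched.Steps
import Vale.Agent.P225.Sched.Shape
import Vale.Agent.P225.Sched.Timeline

/-!
P225, assembly: the composites of the schedule and their slots.

Composite `c` is composite `c % (3 R) % 3` of transposition `c % (3 R) / 3` in period `c / (3 R)`,
`R` the number of transpositions.
-/

namespace Vale.Agent.P225.Sched

noncomputable section

/-- The data of the steps: groups, words and crossings. -/
structure Recipe where
  /-- Copies of the words in a composite. -/
  groups : ℕ
  groups_pos : 0 < groups
  /-- The words. -/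
  words : List Word
  words_ne : words ≠ []
  /-- The crossings of a period. -/
  cross : List Crossing
  cross_ne : cross ≠ []
  cross_z : ∀ x ∈ cross, -(1 / 40 : ℝ) ≤ x.z ∧ x.z ≤ 9 / 250

namespace Recipe

variable (R : Recipe)

/-- The steps of a period. -/
def steps : List Step := periodSteps R.groups R.words R.cross

/-- The parameters. -/
def params (N : ℕ) : Params := ⟨R.steps, N⟩

/-- Slots per composite. -/
def S : ℕ := R.groups * R.words.length

/-- Composites per period. -/
def Q : ℕ := 3 * R.cross.length

/-- Steps per composite. -/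
def L : ℕ := (composite R.groups R.words).length

/-- Position of composite `q` in the period. -/
def off (q : ℕ) : ℕ := compOffset R.groups R.words (q / 3) (q % 3)

theorem S_pos : 0 < R.S := Nat.mul_pos R.groups_pos (List.length_pos_of_ne_nil R.words_ne)

theorem Q_pos : 0 < R.Q := Nat.mul_pos (by norm_num) (List.length_pos_of_ne_nil R.cross_ne)

theorem steps_valid : ∀ s ∈ R.steps, s.Valid := periodSteps_valid _ _ _ R.cross_z

theorem steps_length : R.steps.length = R.cross.length * (3 * (R.L + 1)) :=
  periodSteps_length _ _ _

theorem off_eq (q : ℕ) : R.off q = q * (R.L + 1) + 1 := by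
  have h : q / 3 * 3 + q % 3 = q := Nat.div_add_mod' q 3
  calc R.off q = (q / 3 * 3 + q % 3) * (R.L + 1) + 1 := by
        simp only [off, compOffset, L]; ring
    _ = _ := by rw [h]

theorem off_end_le {q : ℕ} (hq : q < R.Q) : R.off q + R.L ≤ R.steps.length := by
  rw [R.off_eq, R.steps_length]
  have : (q + 1) * (R.L + 1) ≤ R.Q * (R.L + 1) := Nat.mul_le_mul_right _ hq
  calc q * (R.L + 1) + 1 + R.L = (q + 1) * (R.L + 1) := by ring
    _ ≤ R.Q * (R.L + 1) := this
    _ = R.cross.length * (3 * (R.L + 1)) := by simp only [Q]; ring

/-- The period of composite `c`. -/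
def per (c : ℕ) : ℕ := c / R.Q

/-- The place of composite `c` in its period. -/
def idx (c : ℕ) : ℕ := c % R.Q

theorem idx_lt (c : ℕ) : R.idx c < R.Q := Nat.mod_lt _ R.Q_pos

/-- The start of composite `c`. -/
def compA (N c : ℕ) : ℝ := (R.params N).start (R.per c) (R.off (R.idx c))

/-- The end of composite `c`. -/
def compB (N c : ℕ) : ℝ := (R.params N).start (R.per c) (R.off (R.idx c) + R.L)

/-- The first slot of composite `c`. -/
def first (c : ℕ) : ℕ := c * R.S

theorem first_zero : R.first 0 = 0 := Nat.zero_mul _

theorem first_strictMono : StrictMono R.first := fun _ _ h => Nat.mul_lt_mul_of_pos_right h R.S_pos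

theorem slotList_params (N : ℕ) : (R.params N).slotList =
    (List.range R.Q).flatMap fun q =>
      (slotsOf (composite R.groups R.words)).map (R.off q + ·) := by
  rw [slotList_eq, Params.list, slotsOf_append_stay]
  exact slotsOf_periodSteps _ _ _

theorem slotList_length (N : ℕ) : (R.params N).slotList.length = R.Q * R.S := by
  rw [R.slotList_params, List.length_flatMap]
  simp [slotsOf_composite_length, S]

theorem slotList_ne (N : ℕ) : (R.params N).slotList ≠ [] := by
  intro h
  have := R.slotList_length N
  rw [h] at this
  exact (Nat.mul_pos R.Q_pos R.S_pos).ne' this.symm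

/-- Slot `n` lies in the composite `n / S`. -/
theorem slotPos_eq (N c s : ℕ) (hs : s < R.S) :
    (R.params N).slotPos (R.first c + s) =
      (R.params N).start (R.per c) (R.off (R.idx c) +
        (slotsOf (composite R.groups R.words)).getD s 0) := by
  have hlen := R.slotList_length N
  have hQS := Nat.mul_pos R.Q_pos R.S_pos
  have hc : R.per c * R.Q + R.idx c = c := Nat.div_add_mod' c R.Q
  have hlt : R.idx c * R.S + s < R.Q * R.S := by
    calc R.idx c * R.S + s < (R.idx c + 1) * R.S := by rw [Nat.succ_mul]; omega
      _ ≤ R.Q * R.S := Nat.mul_le_mul_right _ (R.idx_lt c)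
  have e : R.first c + s = (R.Q * R.S) * R.per c + (R.idx c * R.S + s) := by
    rw [first]
    nth_rw 1 [← hc]
    ring
  rw [Params.slotPos, hlen, e, Nat.mul_add_div hQS, Nat.div_eq_of_lt hlt, Nat.add_zero,
    Nat.mul_add_mod, Nat.mod_eq_of_lt hlt, R.slotList_params,
    getD_flatMap_of_length_eq _ (fun q => by
      rw [List.length_map, slotsOf_composite_length]; rfl) 0 _ _ _
      (by rw [List.length_range]; exact R.idx_lt c) hs]
  rw [List.getElem_range, List.getD_eq_getElem _ _ (by
      rw [List.length_map, slotsOf_composite_length]; exact hs), List.getElem_map,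
    List.getD_eq_getElem _ _ (by rw [slotsOf_composite_length]; exact hs)]

theorem slotsOf_composite_getD_lt {s : ℕ} (hs : s < R.S) :
    (slotsOf (composite R.groups R.words)).getD s 0 < R.L := by
  have h : s < (slotsOf (composite R.groups R.words)).length := by
    rw [slotsOf_composite_length]; exact hs
  rw [List.getD_eq_getElem _ _ h]
  have := List.getElem_mem h
  simp only [slotsOf, List.mem_filter, List.mem_range] at this
  exact this.1

/-- Slots lie inside their composites. -/
theorem slot_mem (N c n : ℕ) (h1 : R.first c ≤ n) (h2 : n < R.first (c + 1)) :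
    R.compA N c ≤ (R.params N).slotPos n ∧ (R.params N).slotPos n + 1 ≤ R.compB N c := by
  obtain ⟨s, rfl⟩ := Nat.exists_eq_add_of_le h1
  have hs : s < R.S := by simp only [first, Nat.succ_mul] at h2; omega
  obtain ⟨k, hk, -, hk1⟩ := (R.params N).slotPos_step (R.slotList_ne N) (R.first c + s)
  have hk2 := hk
  rw [R.slotPos_eq N c s hs] at hk2
  have hk' := (R.params N).time_strictMono.injective hk2
  have hL := R.slotsOf_composite_getD_lt hs
  refine ⟨?_, ?_⟩
  · rw [hk, compA]
    exact (R.params N).time_strictMono.monotone (by rw [← hk']; omega)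
  · rw [hk1, compB]
    exact (R.params N).time_strictMono.monotone (by rw [← hk']; omega)

/-- Composites are ordered. -/
theorem compB_le (N c : ℕ) : R.compB N c ≤ R.compA N (c + 1) := by
  refine (R.params N).time_strictMono.monotone ?_
  have hend := R.off_end_le (R.idx_lt c)
  have hlen : (R.params N).len = R.steps.length + 1 := (R.params N).len_eq
  have hQ := R.Q_pos
  rcases Nat.lt_or_ge (R.idx c + 1) R.Q with h | h
  · have e1 : R.per (c + 1) = R.per c := Nat.succ_div_of_not_dvd fun hd => by
      have := Nat.mod_eq_zero_of_dvd hd
      rw [Nat.add_mod] at this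
      simp only [idx] at h
      rcases Nat.lt_or_ge 1 R.Q with h1 | h1
      · rw [Nat.mod_eq_of_lt h1, Nat.mod_eq_of_lt h] at this; omega
      · omega
    have e2 : R.idx (c + 1) = R.idx c + 1 := by
      have a := Nat.div_add_mod' c R.Q
      have b := Nat.div_add_mod' (c + 1) R.Q
      simp only [per] at e1
      simp only [idx, e1] at b ⊢
      omega
    rw [e1, e2, R.off_eq, R.off_eq, Nat.succ_mul]
    omega
  · have e1 : R.per (c + 1) = R.per c + 1 := by
      have a := Nat.div_add_mod' c R.Q
      have := R.idx_lt c
      simp only [per, idx] at h this ⊢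
      rw [Nat.div_eq_of_lt_le] <;> nlinarith
    rw [e1, Nat.succ_mul, hlen]
    omega

theorem compA_lt_compB (N c : ℕ) : R.compA N c + 1 ≤ R.compB N c := by
  have h := R.slot_mem N c (R.first c) le_rfl (R.first_strictMono (Nat.lt_succ_self c))
  linarith [h.1, h.2]

end Recipe

end

end Vale.Agent.P225.Sched
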