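import Vale.Agent.P225.Sched.Designed
import Vale.Agent.P225.Sched.Cycle
import Vale.Agent.P225.Assembly.LabelBasis
import Vale.Agent.P225.Assembly.Setup

/-!
P225, assembly: the design on the labels of `Cycle`, the data of its cycle, and the dictionary
between a design and the composites of its recipe.
-/

namespace Vale.Agent.P225.Sched

open Finset Equiv

noncomputable section

/-! ### The dictionary -/

namespace Design

variable (D : Design)

/-- The recipe with the steps of a design. -/
def recipe : Recipe where
  groups := D.groups
  groups_pos := D.groups_pos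
  words := D.words
  words_ne := D.words_ne
  cross := D.crossings
  cross_ne := fun h => by
    have := congrArg List.length h
    simp [crossings] at this
    have := D.T_pos
    omega
  cross_z x hx := by
    simp only [crossings, List.mem_ofFn] at hx
    obtain ⟨r, rfl⟩ := hx
    exact D.z_range r

lemma recipe_params (N : ℕ) : D.recipe.params N = D.params N := rfl

lemma recipe_L : D.recipe.L = D.L := rfl

lemma recipe_Q : D.recipe.Q = 3 * D.T := by simp [Recipe.Q, recipe, crossings]

lemma recipe_per (c : ℕ) : D.recipe.per c = c / (3 * D.T) := by rw [Recipe.per, D.recipe_Q]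

lemma per_len_add (N c : ℕ) (k : ℕ) :
    D.recipe.per c * (D.params N).len + (D.recipe.off (D.recipe.idx c) + k) = D.begIdx c + k := by
  rw [begIdx, D.params_len, Recipe.off_eq, Recipe.per, Recipe.idx, D.recipe_Q, recipe_L]
  conv_rhs => enter [1, 1, 1, 1]; rw [← Nat.div_add_mod c (3 * D.T)]
  ring

/-- The start of a composite of the recipe is the start of the window. -/
lemma compA_eq (N c : ℕ) : D.recipe.compA N c = (D.params N).time (D.begIdx c) :=
  congrArg (D.params N).time (D.per_len_add N c 0)

/-- The end of a composite of the recipe is the time of the transvection. -/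
lemma compB_eq (N c : ℕ) : D.recipe.compB N c = (D.plan N).τ c := by
  show (D.params N).time (D.recipe.per c * (D.params N).len + (D.recipe.off (D.recipe.idx c) + D.L)) =
    (D.params N).time (D.endIdx c)
  rw [D.per_len_add N c D.L]
  congr 1
  unfold begIdx endIdx
  ring

lemma windows_lo_eq {N : ℕ} (h : (D.params N).Ok) (c : ℕ) :
    (windows h).lo c = D.recipe.compA N c := (D.compA_eq N c).symm

lemma windows_ε_eq {N : ℕ} (h : (D.params N).Ok) (c : ℕ) :
    (windows h).ε c = Real.exp (-((D.recipe.per c + (D.params N).N0 : ℕ) : ℝ) ^ 6) := by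
  rw [D.recipe_per]; rfl

lemma sumBd_le_one {N : ℕ} (h : (D.params N).Ok) (hN : 6 * D.T ≤ N) : sumBd h ≤ 1 := by
  have h1 : (6 * D.T : ℝ) ≤ N := by exact_mod_cast hN
  have h2 := Real.add_one_le_exp ((D.params N).N0 : ℝ)
  have h3 : ((D.params N).N0 : ℝ) = N + 1 := by simp [Params.N0, params]
  rw [sumBd, Real.exp_neg, ← div_eq_mul_inv, div_le_one (Real.exp_pos _)]
  linarith

end Design

/-! ### The labels -/

namespace Cross

/-- Exponent gaps near the final radius give gaps of the potentials. -/
lemma muW_gap {x y : Label} {z : ℝ}
    (h : expAt x (Real.log (8 / 7)) 0 z + 1 / 16 ≤ expAt y (Real.log (8 / 7)) 0 z) :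
    muW x.deg x.wt z + 1 / 12 ≤ muW y.deg y.wt z := by
  have e : ∀ w : Label, lamB ((w.deg : ℝ) * (w.deg + 2)) ((w.wt : ℝ) ^ 2) (Real.log (8 / 7)) z =
      64 / 49 * muW w.deg w.wt z := fun w => by
    simp [muW, lamB, Params.exp_two_L]
  have hn : ∀ w : Label, 0 ≤ lamB ((w.deg : ℝ) * (w.deg + 2)) ((w.wt : ℝ) ^ 2) (Real.log (8 / 7)) z :=
    fun w => lamB_nonneg (sq_nonneg _) (sq_le_of_le w.wt_le) _ _
  have ex := Barrier.root_eq (s := (0 : ℝ)) (hn x)
  have ey := Barrier.root_eq (s := (0 : ℝ)) (hn y)
  have px := Barrier.root_nonneg (s := (0 : ℝ)) (hn x)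
  rw [e] at ex ey px
  unfold expAt at h
  rw [e, e] at h
  nlinarith

lemma gaps {a b : Label} {z : ℝ} (h : Cross a b z) :
    muW a.deg a.wt 0 + 1 / 12 ≤ muW b.deg b.wt 0 ∧ muW b.deg b.wt z + 1 / 12 ≤ muW a.deg a.wt z :=
  ⟨muW_gap (h.round _ _ (by linarith) le_rfl (by norm_num)),
    muW_gap (h.squash _ _ (by linarith) le_rfl (by norm_num))⟩

end Cross

/-- Labels as numbers. -/
def labelEquiv : Fin (Fintype.card Label) ≃ Label := (Fintype.equivFin Label).symm

/-- The labelling of the numbered labels. -/
def labelling : Labelling (Fin (Fintype.card Label)) where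
  deg l := (labelEquiv l).deg
  wt l := (labelEquiv l).wt
  idx l := (labelEquiv l).idx
  wt_le l := (labelEquiv l).wt_le
  wt_parity l := (labelEquiv l).wt_parity
  idx_lt l := (labelEquiv l).idx.isLt
  inj a b hd hw hi := by
    refine labelEquiv.injective ?_
    revert hd hw hi
    generalize labelEquiv a = x
    generalize labelEquiv b = y
    obtain ⟨d, k, i⟩ := x
    obtain ⟨d', k', i'⟩ := y
    intro hd hw hi
    simp only [Label.deg, Label.wt, Label.idx] at hd hw hi
    obtain rfl : d = d' := Fin.ext (by omega)
    obtain rfl : k = k' := Fin.ext (by omega)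
    obtain rfl : i = i' := Fin.ext hi
    rfl

/-- The crossings of a period. -/
def crossList : List (Label × Label × ℝ) := exists_cycle.choose

lemma crossList_ne : crossList ≠ [] := exists_cycle.choose_spec.1

lemma crossList_cross : ∀ e ∈ crossList, Cross e.1 e.2.1 e.2.2 := exists_cycle.choose_spec.2.1

/-- The design on the labels, for given groups and words. -/
def design (G : ℕ) (hG : 0 < G) (words : List Word) (hw : words ≠ []) : Design where
  J0 := 101
  d := Fintype.card Label
  deg := labelling.deg
  wt := labelling.wt
  deg_pos _ := Label.one_le_deg _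
  deg_le _ := Label.deg_le _
  wt_le := labelling.wt_le
  T := crossList.length
  T_pos := List.length_pos_of_ne_nil crossList_ne
  A r := labelEquiv.symm crossList[r].1
  B r := labelEquiv.symm crossList[r].2.1
  ne r h := by
    have h1 := (crossList_cross _ (List.getElem_mem r.isLt)).deg_lt
    have h2 := congrArg Label.deg (labelEquiv.symm.injective h)
    simp only [Fin.getElem_fin] at h2
    omega
  z r := crossList[r].2.2
  z_range r := (crossList_cross _ (List.getElem_mem r.isLt)).z_mem
  g := 1 / 12
  g_pos := by norm_num
  round_gap r := by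
    show muW (labelEquiv (labelEquiv.symm _)).deg (labelEquiv (labelEquiv.symm _)).wt _ + _ ≤
      muW (labelEquiv (labelEquiv.symm _)).deg (labelEquiv (labelEquiv.symm _)).wt _
    rw [apply_symm_apply, apply_symm_apply]
    exact (crossList_cross _ (List.getElem_mem r.isLt)).gaps.1
  cross_gap r := by
    show muW (labelEquiv (labelEquiv.symm _)).deg (labelEquiv (labelEquiv.symm _)).wt _ + _ ≤
      muW (labelEquiv (labelEquiv.symm _)).deg (labelEquiv (labelEquiv.symm _)).wt _
    rw [apply_symm_apply, apply_symm_apply]
    exact (crossList_cross _ (List.getElem_mem r.isLt)).gaps.2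
  groups := G
  groups_pos := hG
  words := words
  words_ne := hw

variable {G : ℕ} {hG : 0 < G} {words : List Word} {hw : words ≠ []}

/-- The transpositions act on numbered labels as those of the list act on labels. -/
lemma design_perm (N : ℕ) : ∀ n ≤ crossList.length, ∀ x : Label,
    ((design G hG words hw).plan N).perm n (labelEquiv.symm x) =
      labelEquiv.symm (swaps (crossList.take n) x) := by
  intro n hn
  induction n with
  | zero => intro x; simp [Growth.Plan.perm, swaps]; rfl
  | succ n ih =>
    intro x
    have hnl : n < crossList.length := by omega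
    rw [List.take_succ_eq_append_getElem hnl, swaps_append]
    set g := (design G hG words hw).plan N
    refine (congrArg (swap (g.a n) (g.b n)) (ih (by omega) x)).trans ?_
    have hmod : n % crossList.length = n := Nat.mod_eq_of_lt hnl
    show swap (labelEquiv.symm _) (labelEquiv.symm _) (labelEquiv.symm _) = _
    rw [labelEquiv.symm.injective.swap_apply]
    refine congrArg labelEquiv.symm (congrArg (fun e : Label × Label × ℝ => swap e.1 e.2.1 _) ?_)
    show crossList[(⟨n % crossList.length, _⟩ : Fin crossList.length)] = crossList[n]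
    simp only [Fin.getElem_fin, hmod]

/-- The period permutation has finite order and mean round exponent at most `99`. -/
theorem design_cycle :
    ∃ q : ℕ, 0 < q ∧ ∀ N, ((design G hG words hw).plan N).cyc ^ q = 1 ∧
      ∀ s, ∑ i ∈ range q,
        rateInf ((design G hG words hw).deg ((((design G hG words hw).plan N).cyc ^ i) s)) ≤
          99 * q := by
  obtain ⟨q, hq, hpow, hmean⟩ := exists_cycle.choose_spec.2.2
  refine ⟨q, hq, fun N => ?_⟩
  have h1 : ∀ i x, ((((design G hG words hw).plan N).cyc) ^ i) (labelEquiv.symm x) =
      labelEquiv.symm ((swaps crossList ^ i) x) := by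
    intro i
    induction i with
    | zero => intro x; rfl
    | succ i ih =>
      intro x
      rw [pow_succ' (swaps crossList), pow_succ']
      refine (congrArg ((design G hG words hw).plan N).cyc (ih x)).trans ?_
      have := design_perm (hG := hG) (hw := hw) N crossList.length le_rfl
        ((swaps crossList ^ i) x)
      rwa [List.take_length] at this
  refine ⟨Equiv.ext fun y => ?_, fun s => ?_⟩
  · obtain ⟨x, rfl⟩ := labelEquiv.symm.surjective y
    rw [h1, show crossList = exists_cycle.choose from rfl, hpow]
    rfl
  · obtain ⟨x, rfl⟩ := labelEquiv.symm.surjective s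
    refine le_of_eq_of_le (sum_congr rfl fun i _ => ?_) (hmean x)
    rw [h1]
    show rateInf (labelEquiv (labelEquiv.symm _)).deg = _
    rw [apply_symm_apply]
    rfl

/-- The labels outnumber the Euclidean count. -/
theorem design_card : euclideanCount 100 < (design G hG words hw).d + 1 := card_label

/-- The norming path of the design grows at most like `exp ((99 + δ) t)`. -/
theorem design_path_growth {N : ℕ} (h : ((design G hG words hw).params N).Ok) {δ : ℝ} (hδ : 0 < δ) :
    ∃ C, ∀ t ≥ 0, ∀ x,
      ‖((design G hG words hw).plan N).path t x‖ ≤ C * Real.exp ((99 + δ) * t) * ‖x‖ := by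
  obtain ⟨q, hq, hc⟩ := design_cycle (G := G) (hG := hG) (words := words) (hw := hw)
  exact Design.path_growth h (by norm_num) hq (hc N).1 (hc N).2 hδ

end

end Vale.Agent.P225.Sched
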