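import Vale.Agent.P225.FP.Defs
import Vale.Agent.P225.Geo.Flux
import Vale.Agent.P225.Regularity.Series

/-!
P225: the family of functions: the constants and the solutions of the fixed point.
-/

namespace Vale.Agent.P225.Assembly

open scoped RealInnerProductSpace ContDiff

noncomputable section

variable (H : Harm)

lemma EL_zero (k : Fin 3) : H.EL 0 k = 0 := by
  refine ContinuousLinearMap.ext fun v => ?_
  have h : ∀ l, ⟪v, H.EL 0 l (H.EL 0 l v)⟫ = -‖H.EL 0 l v‖ ^ 2 := fun l => by
    rw [← real_inner_self_eq_norm_sq, H.skew_left 0 l v (H.EL 0 l v), neg_neg]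
  have hz := congrArg (fun w => ⟪v, w⟫) (H.casimir_left 0 v)
  simp only [inner_sum, h, Nat.cast_zero, zero_mul, neg_zero, zero_smul, inner_zero_right,
    Finset.sum_neg_distrib, neg_eq_zero] at hz
  have := (Finset.sum_eq_zero_iff_of_nonneg fun l _ => sq_nonneg ‖H.EL 0 l v‖).1 hz k
    (Finset.mem_univ k)
  simpa using this

lemma ER_zero (k : Fin 3) : H.ER 0 k = 0 := by
  refine ContinuousLinearMap.ext fun v => ?_
  have h : ∀ l, ⟪v, H.ER 0 l (H.ER 0 l v)⟫ = -‖H.ER 0 l v‖ ^ 2 := fun l => by
    rw [← real_inner_self_eq_norm_sq, H.skew_right 0 l v (H.ER 0 l v), neg_neg]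
  have hz := congrArg (fun w => ⟪v, w⟫) (H.casimir_right 0 v)
  simp only [inner_sum, h, Nat.cast_zero, zero_mul, neg_zero, zero_smul, inner_zero_right,
    Finset.sum_neg_distrib, neg_eq_zero] at hz
  have := (Finset.sum_eq_zero_iff_of_nonneg fun l _ => sq_nonneg ‖H.ER 0 l v‖).1 hz k
    (Finset.mem_univ k)
  simpa using this

lemma lam_zero (sh : Shape) (t : ℝ) : sh.lam H 0 t = 0 := by
  refine ContinuousLinearMap.ext fun v => ?_
  simp [Shape.lam, Shape.elAxis, EL_zero H, ER_zero H]

/-- The mode coefficients of a constant function. -/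
def constU (c : V 0) : (j : ℕ) → ℝ → V j
  | 0, _ => c
  | _ + 1, _ => 0

lemma pulse_force_const (p : Pulse) (s τ : ℝ) (c : V 0) (j j' : ℕ) (t : ℝ) :
    p.force H s τ j j' (constU c j t) 0 = 0 := by
  cases j <;> cases hk : p.kind <;> simp [Pulse.force, hk, constU, EL_zero H]

/-- Constants solve the mode equations of every shape and amplitudes. -/
theorem isModeSolution_const (sh : Shape) {P : Pulses} (A : Amps P) (c : V 0) :
    IsModeSolution H sh A (constU c) (fun _ _ => 0) where
  deriv_u j t := by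
    cases j <;> exact hasDerivAt_const t _
  deriv_du j t := by
    have hf : A.force H sh (constU c) (fun _ _ => 0) j t = 0 := by
      simp only [Amps.force, pulse_force_const, Finset.sum_const_zero, smul_zero, tsum_zero]
    have hl : sh.lam H j t (constU c j t) = 0 := by
      cases j <;> simp [constU, lam_zero H]
    rw [hf, hl]
    simpa using hasDerivAt_const t (0 : V j)

lemma fn_zero_eq (c : V 0) (x : R4) : H.fn 0 c x = H.fn 0 c 0 := by
  refine Finset.sum_congr rfl fun i _ => ?_
  have h := H.homog 0 i 0 x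
  rw [zero_smul, pow_zero, one_mul] at h
  rw [h]

/-- The function of constant coefficients is constant. -/
theorem modeSum_const (c : V 0) (x : R4) : modeSum H (constU c) x = H.fn 0 c 0 := by
  rw [modeSum, tsum_eq_single 0]
  · exact fn_zero_eq H c _
  · intro j hj
    cases j with
    | zero => exact absurd rfl hj
    | succ j => simp [constU, Harm.fn]

theorem tame_const (c : V 0) {W : ℝ} (hW : H.C < W) :
    Tame H (constU c) (fun _ _ => 0) W (fun _ => ‖c‖) where
  C_lt := hW
  cont := continuous_const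
  bound j t := by cases j <;> simp [constU]
  start j t _ := by cases j <;> simp [constU]

/-- A tame solution satisfies the divergence equation. -/
theorem div_modeSum {sh : Shape} {P : Pulses} {A : Amps P} (hA : IsMetric (fullFlux H sh A))
    {u du : (j : ℕ) → ℝ → V j} {W : ℝ} {M : ℝ → ℝ} (hsol : IsModeSolution H sh A u du)
    (hT : Tame H u du W M) (x : R4) :
    ∑ i, pd i (fun y => ∑ k, fullFlux H sh A y i k * pd k (modeSum H u) y) x = 0 := by
  have hW : 0 ≤ W := zero_le_one.trans hT.one_lt.le
  refine Geo.flux_div_all hA hsol (Geo.decay_of_weight hT.C_lt hT.cont fun j t => ?_)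
    (Geo.decay_of_weight hT.C_lt hT.cont fun j t => ?_) (modeSum_contDiff hsol hT) x
  · exact (mul_le_mul_of_nonneg_left (le_add_of_nonneg_right (norm_nonneg _))
      (pow_nonneg hW j)).trans (hT.bound j t)
  · exact (mul_le_mul_of_nonneg_left (le_add_of_nonneg_left (norm_nonneg _))
      (pow_nonneg hW j)).trans (hT.bound j t)

open Vale.Agent.P225.FP in
/-- The functions of the counterexample: a constant and one solution for each designed direction. -/
theorem exists_family {sh : Shape} {C : Consts} (F : Flow H sh C)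
    (hΦ : ∀ j t, t ≤ 0 → F.Φ j t = Real.exp ((j : ℝ) * t) • ContinuousLinearMap.id ℝ (V j))
    (hW : H.C < C.W) {P : Pulses} {d d' : ℕ} {ε : ℝ} (pl : Plan F P d d' ε) (ha : 0 ≤ pl.a 0)
    (A : Amps P) {M : ℝ} (hM : 0 ≤ M)
    (hsol : ∀ x : EE d, ∃ u du : (j : ℕ) → ℝ → V j,
      IsModeSolution H sh A u du ∧
      (∀ j t, C.W ^ j * (‖u j t‖ + ‖du j t‖) ≤ M * ‖pl.N t x‖) ∧
      (∀ j, ∃ v : V j, ∀ t ≤ pl.a 0, u j t = F.Φ j t v ∧ du j t = F.Pj j t (F.Φ j t v)) ∧
      ∀ j, 1 ≤ j → j < C.J → ∀ t ≤ pl.a 0, u j t = F.Φ j t (pl.X 0 j x))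
    (hN : ∃ K : ℝ, ∀ t, 0 ≤ t → ∀ x, ‖pl.N t x‖ ≤ K * Real.exp (100 * t) * ‖x‖)
    (hinj : ∀ x : EE d, (∀ j, 1 ≤ j → j < C.J → pl.X 0 j x = 0) → x = 0)
    (hA : IsMetric (fullFlux H sh A)) :
    ∃ f : Option (Fin d) → R4 → ℝ, LinearIndependent ℝ f ∧ (∀ s, ContDiff ℝ ∞ (f s)) ∧
      (∀ s x, ∑ i, pd i (fun y => ∑ k, fullFlux H sh A y i k * pd k (f s) y) x = 0) ∧
      ∀ s, ∃ C' : ℝ, ∀ x, 1 ≤ ‖x‖ → |f s x| ≤ C' * ‖x‖ ^ 100 := by
  choose u du hu hb hst hin using fun s : Fin d => hsol (EuclideanSpace.single s 1)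
  set c : V 0 := EuclideanSpace.single (0 : Fin ((0 + 1) ^ 2)) 1 with hc
  let U : Option (Fin d) → (j : ℕ) → ℝ → V j := fun s => s.elim (constU c) u
  let dU : Option (Fin d) → (j : ℕ) → ℝ → V j := fun s => s.elim (fun _ _ => 0) du
  let B : Option (Fin d) → ℝ → ℝ := fun s =>
    s.elim (fun _ => ‖c‖) fun a t => M * ‖pl.N t (EuclideanSpace.single a 1)‖
  have hsolU : ∀ s, IsModeSolution H sh A (U s) (dU s) := by
    intro s
    cases s with
    | none => exact isModeSolution_const H sh A c
    | some a => exact hu a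
  have hT : ∀ s, Tame H (U s) (dU s) C.W (B s) := by
    intro s
    cases s with
    | none => exact tame_const H c hW
    | some a =>
      refine ⟨hW, ?_, hb a, fun j t ht => ?_⟩
      · exact continuous_const.mul (pl.N_cont.clm_apply continuous_const).norm
      · obtain ⟨v, hv⟩ := hst a j
        have h0 : u a j 0 = v := by
          rw [(hv 0 ha).1, hΦ j 0 le_rfl]
          simp
        show u a j t = Real.exp (j * t) • u a j 0
        rw [h0, (hv t (ht.trans ha)).1, hΦ j t ht]
        simp
  refine ⟨fun s => modeSum H (U s), ?_, fun s => modeSum_contDiff (hsolU s) (hT s),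
    fun s => div_modeSum H hA (hsolU s) (hT s), fun s => ?_⟩
  · refine modeSum_linearIndependent (H := H) (W := C.W) U dU B hT fun w hw => ?_
    have hX : ∀ a j, 1 ≤ j → j < C.J → U (some a) j 0 = pl.X 0 j (EuclideanSpace.single a 1) := by
      intro a j h1 h2
      show u a j 0 = _
      rw [hin a j h1 h2 0 ha, hΦ j 0 le_rfl]
      simp
    have hsum : ∀ a, w (some a) = 0 := by
      have hy : (∑ a, w (some a) • EuclideanSpace.single a (1 : ℝ)) = (0 : EE d) := by
        refine hinj _ fun j h1 h2 => ?_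
        have h := hw j
        rw [Fintype.sum_option] at h
        have hnone : U none j 0 = 0 := by
          cases j with
          | zero => omega
          | succ j => rfl
        rw [hnone, smul_zero, zero_add] at h
        simpa [map_sum, hX _ j h1 h2] using h
      intro a
      have := congrArg (fun v : EE d => v a) hy
      simpa [WithLp.ofLp_sum, Finset.sum_apply, Pi.single_apply] using this
    have h0 := hw 0
    rw [Fintype.sum_option] at h0
    simp only [hsum, zero_smul, Finset.sum_const_zero, add_zero] at h0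
    have hnone : w none = 0 := by
      have h := congrArg (fun v : V 0 => v 0) h0
      simpa [U, constU, hc] using h
    funext s
    cases s with
    | none => exact hnone
    | some a => exact hsum a
  · obtain ⟨K, hK⟩ := hN
    have hgeom : 0 ≤ (1 - H.C / C.W)⁻¹ := by
      have hpos : 0 < C.W := lt_trans (lt_of_lt_of_le one_pos H.one_le_C) hW
      rw [inv_nonneg, sub_nonneg, div_le_one hpos]
      exact hW.le
    cases s with
    | none =>
      refine ⟨|H.fn 0 c 0|, fun x hx => ?_⟩
      show |modeSum H (constU c) x| ≤ _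
      rw [modeSum_const]
      exact le_mul_of_one_le_right (abs_nonneg _) (one_le_pow₀ hx)
    | some a =>
      refine ⟨(1 - H.C / C.W)⁻¹ * (M * (K * ‖(EuclideanSpace.single a (1 : ℝ) : EE d)‖)),
        fun x hx => ?_⟩
      have hlog : 0 ≤ Real.log ‖x‖ := Real.log_nonneg hx
      have he : Real.exp (100 * Real.log ‖x‖) = ‖x‖ ^ 100 := by
        rw [show (100 : ℝ) * Real.log ‖x‖ = Real.log (‖x‖ ^ 100) by
          rw [Real.log_pow]; norm_num, Real.exp_log (pow_pos (zero_lt_one.trans_le hx) _)]
      refine (abs_modeSum_le (hT (some a)) x).trans ?_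
      have h := hK _ hlog (EuclideanSpace.single a (1 : ℝ))
      rw [he] at h
      calc (1 - H.C / C.W)⁻¹ * B (some a) (Real.log ‖x‖)
          ≤ (1 - H.C / C.W)⁻¹ *
            (M * (K * ‖x‖ ^ 100 * ‖(EuclideanSpace.single a (1 : ℝ) : EE d)‖)) :=
            mul_le_mul_of_nonneg_left (mul_le_mul_of_nonneg_left h hM) hgeom
        _ = _ := by ring

end

end Vale.Agent.P225.Assembly
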