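import Vale.Agent.P225.Assembly.Main
import Vale.Agent.P225.Assembly.Modes

/-!
P225, assembly: harmonic functions from the solutions of the fixed point, as used by
`counterexample_of`.
-/

namespace Vale.Agent.P225.Assembly

noncomputable section

/-- Harmonic functions from the solutions of the fixed point. -/
theorem family_stmt (H : Harm) : FamilyStmt H := by
  intro sh C F hΦ hW P d d' ε pl ha A hA M hM hsol hN hinj
  exact exists_family H F hΦ hW pl ha A hM hsol hN hinj hA

end

end Vale.Agent.P225.Assembly
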