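import Vale.Agent.P225.Geo.Model

/-!
P225: the counterexample from a flux matrix with enough harmonic functions of growth `100`.
-/

namespace Vale.Agent.P225

open scoped ContDiff

noncomputable section

/-- A continuous function bounded by `C ‖x‖ ^ k` outside the unit ball is bounded by a multiple of
`(1 + ‖x‖) ^ k` everywhere. -/
theorem exists_norm_growth {f : R4 → ℝ} (hf : Continuous f) {k : ℕ} {C : ℝ}
    (h : ∀ x, 1 ≤ ‖x‖ → |f x| ≤ C * ‖x‖ ^ k) :
    ∃ C', ∀ x, |f x| ≤ C' * (1 + ‖x‖) ^ k := by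
  obtain ⟨B, hB⟩ := (isCompact_closedBall (0 : R4) 1).exists_bound_of_continuousOn hf.continuousOn
  refine ⟨max B 0 + max C 0, fun x => ?_⟩
  have h1 : (1 : ℝ) ≤ (1 + ‖x‖) ^ k := one_le_pow₀ (by linarith [norm_nonneg x])
  rcases le_total ‖x‖ 1 with hx | hx
  · have hb : |f x| ≤ max B 0 := by
      have := hB x (mem_closedBall_zero_iff.2 hx)
      rw [Real.norm_eq_abs] at this
      exact this.trans (le_max_left _ _)
    nlinarith [le_max_right B 0, le_max_right C 0]
  · have hb : |f x| ≤ max C 0 * (1 + ‖x‖) ^ k := (h x hx).trans (mul_le_mul (le_max_left _ _)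
      (pow_le_pow_left₀ (norm_nonneg _) (by linarith) k) (by positivity) (le_max_right _ _))
    nlinarith [le_max_right B 0]

/-- A counterexample from a smooth uniformly elliptic flux matrix, with nonnegative Ricci curvature
for its metric, and `h_100(ℝ⁴) + 1` independent solutions of the divergence equation of growth
`100`. -/
theorem counterexample_of_flux (A : R4 → Matrix (Fin 4) (Fin 4) ℝ) (hA : IsMetric A)
    (hric : RicciNonneg (metricOfFlux A))
    (hell : ∃ a b : ℝ, 0 < a ∧ 0 < b ∧ ∀ x (v : Fin 4 → ℝ),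
      a * ∑ i, v i ^ 2 ≤ quad (A x) v ∧ quad (A x) v ≤ b * ∑ i, v i ^ 2)
    {ι : Type*} [Fintype ι] (hcard : euclideanCount 100 < Fintype.card ι)
    (f : ι → R4 → ℝ) (hli : LinearIndependent ℝ f) (hsm : ∀ s, ContDiff ℝ ∞ (f s))
    (hdiv : ∀ s x, ∑ i, pd i (fun y => ∑ j, A y i j * pd j (f s) y) x = 0)
    (hgrow : ∀ s, ∃ C : ℝ, ∀ x, 1 ≤ ‖x‖ → |f s x| ≤ C * ‖x‖ ^ 100) :
    Counterexample := by
  obtain ⟨a, b, ha, hb, hab⟩ := hell
  obtain ⟨e⟩ : Nonempty (Fin (euclideanCount 100 + 1) ↪ ι) :=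
    Function.Embedding.nonempty_of_card_le (by rw [Fintype.card_fin]; omega)
  refine ⟨metricOfFlux A, 100, by norm_num, isMetric_metricOfFlux hA, hric,
    isComplete_metricOfFlux hA ha hb (fun x v => (hab x v).1) (fun x v => (hab x v).2),
    fun i => f (e i), hli.comp e e.injective, fun i => ?_⟩
  obtain ⟨C, hC⟩ := hgrow (e i)
  obtain ⟨C', hC'⟩ := exists_norm_growth (hsm (e i)).continuous hC
  exact inH_metricOfFlux hA ha hb (fun x v => (hab x v).1) (fun x v => (hab x v).2) (hsm (e i))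
    (hdiv (e i)) hC'

end

end Vale.Agent.P225
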