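import Vale.Agent.P225.Assembly.Main
import Vale.Agent.P225.Assembly.DesignInst

/-!
P225, assembly: inputs of the counterexample for the design on the labels: the layout of the
slots, the label vectors, the cycle data, and the scalar model from the comparison.
-/

namespace Vale.Agent.P225.Assembly

open Sched Finset

noncomputable section

/-- Slots lie in their composites. -/
theorem slotLayout (D : Design) : SlotLayout D := fun N =>
  ⟨D.recipe.slotList_ne N, fun c n h1 h2 => by
    have h := D.recipe.slot_mem N c n h1 h2
    rwa [D.compA_eq, D.compB_eq] at h⟩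

theorem slots_pos (D : Design) : 0 < slots D := D.recipe.S_pos

section

variable (H : Harm) {G : ℕ} {hG : 0 < G} {words : List Word} {hw : words ≠ []}

/-- The vectors of the numbered labels. -/
def labelVec (l : Fin (Fintype.card Label)) (j : ℕ) : V j := labelling.vec H j l

theorem design_J0 : (design G hG words hw).J0 ≤ 101 := le_rfl

theorem labelVec_zero (l : Fin (Fintype.card Label)) : labelVec H l 0 = 0 :=
  labelling.vec_of_ne H (Nat.one_le_iff_ne_zero.1 (labelEquiv l).one_le_deg)

theorem labelVec_sep (x : EuclideanSpace ℝ (Fin (design G hG words hw).d))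
    (h : ∀ j, 1 ≤ j → j < Jc → ∑ l, x l • labelVec H l j = 0) : x = 0 := by
  exact labelling.eq_zero_of_map H x fun a => (labelling.map_apply H _ x).trans
    (h _ (labelEquiv a).one_le_deg (lt_of_le_of_lt (labelEquiv a).deg_le (by norm_num [Jc])))

/-- The cycle data in the form of `counterexample_of`. -/
theorem design_hyps : ∃ q : ℕ, 0 < q ∧ (∀ N, ((design G hG words hw).plan N).cyc ^ q = 1) ∧
    ∀ N s, ∑ i ∈ range q,
      rateInf ((design G hG words hw).deg ((((design G hG words hw).plan N).cyc ^ i) s)) ≤
        99 * q := by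
  obtain ⟨q, hq, h⟩ := design_cycle (G := G) (hG := hG) (words := words) (hw := hw)
  exact ⟨q, hq, fun N => (h N).1, fun N => (h N).2⟩

/-- A vector of weight `m` is an eigenvector of every function of the weight. -/
theorem diagW_of_block {j m : ℕ} (f : ℕ → ℝ) {v : V j} (hv : H.block j m v = v) :
    diagW H j f v = f m • v := by
  ext i
  rw [diagW_apply, PiLp.smul_apply, smul_eq_mul]
  by_cases hi : H.wt j i = m
  · rw [hi]
  · have : v i = 0 := by rw [← hv, H.block_apply, if_neg hi]
    rw [this, mul_zero, mul_zero]

/-- The regular solutions on a label against its scalar model. -/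
theorem scalarModel (hcmp : CompareStmt H)
    (hclosed : ∀ j, 1 ≤ j → j < Jc → prefixOp H j (design G hG words hw).steps = 1) :
    ScalarModel H (design G hG words hw) (labelVec H) := by
  set D := design G hG words hw with hD
  have hK : ∀ j : ℕ, ∃ K : ℝ, 1 ≤ j → j < Jc → ∀ (N : ℕ) (h : (D.params N).Ok) (t : ℝ),
      ‖gam H (Params.coeff H h j) (fun m => qW (D.params N).shape j m) t‖ ≤ K := by
    intro j
    by_cases hj : 1 ≤ j ∧ j < Jc
    · obtain ⟨K, hK⟩ := hcmp D.steps j hj.1 (hclosed j hj.1 hj.2)
      exact ⟨K, fun _ _ N h t => ((hK N h (D.params N).shape _ (Params.coeff H h j) rfl rfl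
        (fun _ => rfl) ⟨fun m hm => h.isRic_qW hm, fun m hm t ht => h.qW_start hm ht,
          fun m hm t => h.qW_nonneg hm t⟩ ⟨fun _ => rfl, fun _ => rfl, rfl⟩).1 t).1⟩
    · exact ⟨0, fun h1 h2 => absurd ⟨h1, h2⟩ hj⟩
  choose K hK using hK
  set KΓ := 1 + ∑ j ∈ range Jc, |K j| with hKΓ
  have hKpos : 0 < KΓ := add_pos_of_pos_of_nonneg one_pos (sum_nonneg fun j _ => abs_nonneg _)
  refine ⟨KΓ, hKpos, fun K' W N h j hj t l => ?_⟩
  by_cases hd : labelling.deg l = j
  · subst hd
    set v := labelVec H l (labelling.deg l) with hv
    set E := expoR (D.params N).shape (labelling.deg l) (labelling.wt l) t with hE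
    have hnv : ‖v‖ = 1 := labelling.norm_vec H rfl
    have hsf : scalarFlowInv H (fun m => qW (D.params N).shape (labelling.deg l) m)
        (labelling.deg l) t v = Real.exp (-E) • v :=
      diagW_of_block H _ (labelling.block_vec H _ l)
    have e : (Params.coeff H h (labelling.deg l)).Phi t v = Real.exp E •
        gam H (Params.coeff H h (labelling.deg l))
          (fun m => qW (D.params N).shape (labelling.deg l) m) t v := by
      show _ = Real.exp E • (Params.coeff H h (labelling.deg l)).Phi t (scalarFlowInv H _ _ t v)
      rw [hsf, map_smul, smul_smul, ← Real.exp_add, add_neg_cancel, Real.exp_zero, one_smul]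
    show ‖(Params.coeff H h (labelling.deg l)).Phi t v‖ ≤ KΓ * Real.exp E
    rw [e, norm_smul, Real.norm_eq_abs, Real.abs_exp, mul_comm]
    refine mul_le_mul_of_nonneg_right ?_ (Real.exp_pos _).le
    refine le_trans (ContinuousLinearMap.le_opNorm _ _) ?_
    rw [hnv, mul_one]
    refine (hK (labelling.deg l) (labelEquiv l).one_le_deg hj N h t).trans ?_
    have hsum := single_le_sum (s := range Jc) (f := fun i => |K i|) (fun i _ => abs_nonneg _)
      (mem_range.2 hj)
    beta_reduce at hsum
    linarith [le_abs_self (K (labelling.deg l)), hKΓ]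
  · rw [show labelVec H l j = 0 from labelling.vec_of_ne H hd, map_zero, norm_zero]
    positivity

end

end

end Vale.Agent.P225.Assembly
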