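import Vale.Agent.P225.Sched.Shape

/-!
P225 Assembly: the weight `κ` of smallness of the fixed point.

`κ t = c (max t 0 + N₀ ^ 8) ^ (3/4)`. During period `i` it is comparable to `n ^ 6` with
`n = i + N₀`, it is `1/4`-Lipschitz once `N₀` is large, and `exp (-κ t / 2)` is far below the
tail `(t + N₀ ^ 8) ^ (-3/2)` and below every `n ^ -q exp (-A n ^ 3)`.
-/

namespace Vale.Agent.P225.Sched

open Real Filter
open scoped Topology

noncomputable section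

/-- A sixth power in the exponent beats a cube and every power. -/
theorem exists_exp_margin {c : ℝ} (hc : 0 < c) (A M : ℝ) (q : ℕ) {ε : ℝ} (hε : 0 < ε) :
    ∃ N₁ : ℕ, ∀ n : ℝ, (N₁ : ℝ) ≤ n → A * n ^ 3 ≤ c * n ^ 6 ∧
      |M| * n ^ q * exp (A * n ^ 3) * exp (-(c * n ^ 6)) ≤ ε := by
  have h0 : Tendsto (fun n : ℝ => |M| * (n ^ (q : ℝ) * exp (-(c / 2) * n))) atTop (𝓝 0) := by
    simpa using (tendsto_rpow_mul_exp_neg_mul_atTop_nhds_zero (q : ℝ) (c / 2)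
      (by linarith)).const_mul |M|
  obtain ⟨T, hT⟩ := eventually_atTop.1
    ((h0.eventually_le_const hε).and (eventually_ge_atTop (max 1 (2 * |A| / c))))
  obtain ⟨N₁, hN⟩ := exists_nat_ge T
  refine ⟨N₁, fun n hn => ?_⟩
  obtain ⟨h1, h2⟩ := hT n (hN.trans hn)
  rw [rpow_natCast] at h1
  have hn1 : 1 ≤ n := (le_max_left _ _).trans h2
  have hn3 : n ≤ n ^ 3 := le_self_pow₀ hn1 (by norm_num)
  have hA : 2 * |A| ≤ c * n ^ 3 := by
    have h3 := (div_le_iff₀ hc).1 ((le_max_right 1 _).trans h2)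
    nlinarith
  have hhalf : A * n ^ 3 ≤ c / 2 * n ^ 6 := by
    have h30 : (0 : ℝ) ≤ n ^ 3 := by positivity
    nlinarith [le_abs_self A, show n ^ 6 = n ^ 3 * n ^ 3 by ring]
  have hn6 : n ≤ n ^ 6 := le_self_pow₀ hn1 (by norm_num)
  refine ⟨hhalf.trans (by nlinarith), ?_⟩
  rw [mul_assoc, ← exp_add]
  refine le_trans ?_ h1
  rw [← mul_assoc]
  gcongr
  nlinarith

/-- `x ^ (3/4)` is Lipschitz with constant `a ^ (-1/4)` above `a`. -/
theorem rpow_three_quarters_sub_le {a b : ℝ} (ha : 0 < a) (hab : a ≤ b) :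
    (b ^ (3 / 4 : ℝ) - a ^ (3 / 4 : ℝ)) * a ^ (1 / 4 : ℝ) ≤ b - a := by
  have hb : 0 < b := ha.trans_le hab
  have h4 : ∀ {x : ℝ}, 0 ≤ x → (x ^ (1 / 4 : ℝ)) ^ 4 = x := fun {x} hx => by
    rw [← rpow_natCast, ← rpow_mul hx]; norm_num
  have h3 : ∀ {x : ℝ}, 0 ≤ x → (x ^ (1 / 4 : ℝ)) ^ 3 = x ^ (3 / 4 : ℝ) := fun {x} hx => by
    rw [← rpow_natCast, ← rpow_mul hx]; norm_num
  rw [← h3 ha.le, ← h3 hb.le]
  conv_rhs => rw [← h4 ha.le, ← h4 hb.le]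
  have hu : 0 < a ^ (1 / 4 : ℝ) := rpow_pos_of_pos ha _
  have huv : a ^ (1 / 4 : ℝ) ≤ b ^ (1 / 4 : ℝ) := rpow_le_rpow ha.le hab (by norm_num)
  generalize a ^ (1 / 4 : ℝ) = u at hu huv ⊢
  generalize b ^ (1 / 4 : ℝ) = v at huv ⊢
  have hv : 0 ≤ v := hu.le.trans huv
  nlinarith [mul_nonneg (sub_nonneg.2 huv) (pow_nonneg hv 3)]

namespace Params

variable (p : Params)

/-- The weight of smallness. -/
def kappa (c t : ℝ) : ℝ := c * (max t 0 + (p.N0 : ℝ) ^ 8) ^ (3 / 4 : ℝ)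

theorem kappa_base_pos (t : ℝ) : 0 < max t 0 + (p.N0 : ℝ) ^ 8 := by
  have := p.one_le_N0
  positivity

theorem continuous_kappa (c : ℝ) : Continuous (p.kappa c) :=
  continuous_const.mul (((continuous_id.max continuous_const).add continuous_const).rpow_const
    fun _ => Or.inr (by norm_num))

theorem kappa_nonneg {c : ℝ} (hc : 0 ≤ c) (t : ℝ) : 0 ≤ p.kappa c t :=
  mul_nonneg hc (rpow_nonneg (p.kappa_base_pos t).le _)

/-- The weight is `1/4`-Lipschitz for large `N₀`. -/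
theorem kappa_lip {c : ℝ} (hc : 0 ≤ c) (hN : 4 * c ≤ (p.N0 : ℝ)) (s t : ℝ) :
    |p.kappa c s - p.kappa c t| ≤ |s - t| / 4 := by
  wlog h : t ≤ s generalizing s t
  · rw [abs_sub_comm, abs_sub_comm s t]
    exact this t s (le_of_not_ge h)
  rw [abs_of_nonneg (sub_nonneg.2 h)]
  set a := max t 0 + (p.N0 : ℝ) ^ 8 with ha
  set b := max s 0 + (p.N0 : ℝ) ^ 8 with hb
  have hab : a ≤ b := add_le_add (max_le_max h le_rfl) le_rfl
  have hba : b - a ≤ s - t := by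
    rw [ha, hb, add_sub_add_right_eq_sub]
    exact (max_sub_max_le_max s 0 t 0).trans (max_le le_rfl (by linarith))
  have hapos : 0 < a := p.kappa_base_pos t
  have hmono : a ^ (3 / 4 : ℝ) ≤ b ^ (3 / 4 : ℝ) := rpow_le_rpow hapos.le hab (by norm_num)
  have hroot : (p.N0 : ℝ) ≤ a ^ (1 / 4 : ℝ) := by
    have h2 : (p.N0 : ℝ) ^ 4 ≤ a := by
      have : (p.N0 : ℝ) ^ 4 ≤ (p.N0 : ℝ) ^ 8 := pow_le_pow_right₀ p.one_le_N0 (by norm_num)
      linarith [le_max_right t 0]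
    calc (p.N0 : ℝ) = ((p.N0 : ℝ) ^ 4) ^ (1 / 4 : ℝ) := by
          rw [← rpow_natCast, ← rpow_mul (Nat.cast_nonneg _)]; norm_num
      _ ≤ _ := rpow_le_rpow (by positivity) h2 (by norm_num)
  have hkey := rpow_three_quarters_sub_le hapos hab
  have e : p.kappa c s - p.kappa c t = c * (b ^ (3 / 4 : ℝ) - a ^ (3 / 4 : ℝ)) := by
    simp only [kappa, ha, hb, mul_sub]
  rw [e, abs_of_nonneg (mul_nonneg hc (sub_nonneg.2 hmono))]
  nlinarith [mul_le_mul_of_nonneg_right (hN.trans hroot) (sub_nonneg.2 hmono)]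

/-- The lower bound from a period start on. -/
theorem kappa_ge {c : ℝ} (hc : 0 ≤ c) {i : ℕ} {t : ℝ} (ht : p.P i ≤ t) :
    c / 255 * ((i + p.N0 : ℕ) : ℝ) ^ 6 ≤ p.kappa c t := by
  set n : ℝ := ((i + p.N0 : ℕ) : ℝ) with hn
  have h0 : n ^ 8 / 255 ≤ max t 0 + (p.N0 : ℝ) ^ 8 := by
    have : n ^ 8 / 255 ≤ p.P i + (p.N0 : ℝ) ^ 8 := p.period_start_ge i
    linarith [le_max_left t 0]
  have hn0 : 0 ≤ n := by rw [hn]; exact Nat.cast_nonneg _
  have h1 : (255 : ℝ)⁻¹ ≤ (255 : ℝ)⁻¹ ^ (3 / 4 : ℝ) := by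
    calc (255 : ℝ)⁻¹ = (255 : ℝ)⁻¹ ^ (1 : ℝ) := (rpow_one _).symm
      _ ≤ _ := rpow_le_rpow_of_exponent_ge (by norm_num) (by norm_num) (by norm_num)
  have h2 : n ^ 6 = (n ^ 8) ^ (3 / 4 : ℝ) := by
    rw [← rpow_natCast n 8, ← rpow_mul hn0, ← rpow_natCast n 6]; norm_num
  calc c / 255 * n ^ 6 = c * ((255 : ℝ)⁻¹ * n ^ 6) := by ring
    _ ≤ c * ((255 : ℝ)⁻¹ ^ (3 / 4 : ℝ) * n ^ 6) := by gcongr
    _ = c * ((255 : ℝ)⁻¹ * n ^ 8) ^ (3 / 4 : ℝ) := by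
        rw [h2, mul_rpow (by norm_num) (by positivity)]
    _ ≤ p.kappa c t := by
        unfold kappa
        gcongr
        linarith

/-- The upper bound up to the end of a period. -/
theorem kappa_le {c : ℝ} (hc : 0 ≤ c) {i : ℕ} {t : ℝ} (ht : t ≤ p.P (i + 1)) :
    p.kappa c t ≤ c * (p.durSum + 3) * ((i + p.N0 : ℕ) : ℝ) ^ 6 := by
  set n : ℝ := ((i + p.N0 : ℕ) : ℝ) with hn
  have hk : p.steps.length < p.len := by rw [p.len_eq]; omega
  have hsz : p.size (i * p.len + p.steps.length) = n := p.size_add i _ hk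
  have e : p.time (i * p.len + p.steps.length + 1) = p.P (i + 1) := by
    rw [← p.start_len i, start, p.len_eq, Nat.add_assoc]
  have hpos : 0 ≤ p.P (i + 1) := le_trans (Nat.cast_nonneg _) (p.N0_le_time _)
  have h0 : max t 0 + (p.N0 : ℝ) ^ 8 ≤ (p.durSum + 3) * n ^ 8 := by
    rw [← hsz]
    exact p.time_add_le (by rw [e]; exact max_le ht hpos)
  have hD : (1 : ℝ) ≤ p.durSum + 3 := by linarith [p.durSum_nonneg]
  have hn0 : 0 ≤ n := by rw [hn]; exact Nat.cast_nonneg _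
  have h1 : (p.durSum + 3) ^ (3 / 4 : ℝ) ≤ p.durSum + 3 := by
    calc (p.durSum + 3) ^ (3 / 4 : ℝ) ≤ (p.durSum + 3) ^ (1 : ℝ) :=
          rpow_le_rpow_of_exponent_le hD (by norm_num)
      _ = _ := rpow_one _
  have h2 : n ^ 6 = (n ^ 8) ^ (3 / 4 : ℝ) := by
    rw [← rpow_natCast n 8, ← rpow_mul hn0, ← rpow_natCast n 6]; norm_num
  calc p.kappa c t ≤ c * ((p.durSum + 3) * n ^ 8) ^ (3 / 4 : ℝ) := by
        unfold kappa
        exact mul_le_mul_of_nonneg_left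
          (rpow_le_rpow (p.kappa_base_pos t).le h0 (by norm_num)) hc
    _ = c * ((p.durSum + 3) ^ (3 / 4 : ℝ) * n ^ 6) := by
        rw [mul_rpow (by linarith) (by positivity), ← h2]
    _ ≤ c * ((p.durSum + 3) * n ^ 6) := by gcongr
    _ = _ := by ring

theorem N_le_size (i : ℕ) : (p.N : ℝ) ≤ ((i + p.N0 : ℕ) : ℝ) := by
  exact_mod_cast (show p.N ≤ i + p.N0 by unfold N0; omega)

end Params

/-- `exp (-κ / 2)` is below any multiple of the tail, uniformly for large `N`. -/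
theorem exists_kappa_tail {c : ℝ} (hc : 0 < c) (M : ℝ) {ε : ℝ} (hε : 0 < ε) :
    ∃ N₁ : ℕ, ∀ p : Params, N₁ ≤ p.N → ∀ t : ℝ, 0 ≤ t →
      M * exp (-(p.kappa c t / 2)) ≤ ε * p.tail t := by
  obtain ⟨N₁, h⟩ := exists_exp_margin (half_pos hc) 0 M 12 hε
  refine ⟨N₁, fun p hp t ht => ?_⟩
  have hb : 0 < t + (p.N0 : ℝ) ^ 8 := by
    have := p.one_le_N0
    positivity
  set y : ℝ := (t + (p.N0 : ℝ) ^ 8) ^ (1 / 8 : ℝ) with hy
  have hy0 : 0 < y := rpow_pos_of_pos hb _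
  have hyN : (N₁ : ℝ) ≤ y := by
    calc (N₁ : ℝ) ≤ (p.N0 : ℝ) := by exact_mod_cast (show N₁ ≤ p.N0 by unfold Params.N0; omega)
      _ = ((p.N0 : ℝ) ^ 8) ^ (1 / 8 : ℝ) := by
          rw [← rpow_natCast, ← rpow_mul (Nat.cast_nonneg _)]; norm_num
      _ ≤ y := rpow_le_rpow (by positivity) (le_add_of_nonneg_left ht) (by norm_num)
  have hk : p.kappa c t = c * y ^ 6 := by
    rw [Params.kappa, max_eq_left ht, hy]
    generalize t + (p.N0 : ℝ) ^ 8 = x at hb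
    rw [← rpow_natCast _ 6, ← rpow_mul hb.le]
    norm_num
  have htl : p.tail t = (y ^ 12)⁻¹ := by
    rw [Params.tail, hy]
    generalize t + (p.N0 : ℝ) ^ 8 = x at hb
    rw [← rpow_natCast _ 12, ← rpow_mul hb.le, ← rpow_neg hb.le]
    norm_num
  have h2 := (h y hyN).2
  rw [zero_mul, exp_zero, mul_one] at h2
  rw [hk, htl, ← div_eq_mul_inv, le_div_iff₀ (by positivity),
    show -(c * y ^ 6 / 2) = -(c / 2 * y ^ 6) by ring]
  refine le_trans ?_ h2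
  rw [mul_right_comm]
  gcongr
  exact le_abs_self M

/-- Against `exp (-κ / 4)`: cubes and powers of the size are negligible from each period start. -/
theorem exists_kappa_margin {c : ℝ} (hc : 0 < c) (A M : ℝ) (q : ℕ) {ε : ℝ} (hε : 0 < ε) :
    ∃ N₁ : ℕ, ∀ p : Params, N₁ ≤ p.N → ∀ (i : ℕ) (t : ℝ), p.P i ≤ t →
      A * ((i + p.N0 : ℕ) : ℝ) ^ 3 ≤ p.kappa c t / 4 ∧
      |M| * ((i + p.N0 : ℕ) : ℝ) ^ q * exp (A * ((i + p.N0 : ℕ) : ℝ) ^ 3) *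
        exp (-(p.kappa c t / 4)) ≤ ε := by
  obtain ⟨N₁, h⟩ := exists_exp_margin (show 0 < c / 1020 by linarith) A M q hε
  refine ⟨N₁, fun p hp i t ht => ?_⟩
  obtain ⟨h1, h2⟩ := h _ ((Nat.cast_le.2 hp).trans (p.N_le_size i))
  have hk := p.kappa_ge hc.le ht
  refine ⟨by linarith, le_trans ?_ h2⟩
  gcongr
  linarith

/-- Against a target `exp (-d n ^ 6)`: the weight can be afforded up to the period end. -/
theorem exists_kappa_target {d : ℝ} (hd : 0 < d) (A M : ℝ) (q : ℕ) {ε : ℝ} (hε : 0 < ε) :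
    ∃ N₁ : ℕ, ∀ (p : Params) (c : ℝ), N₁ ≤ p.N → 0 ≤ c → c * (p.durSum + 3) ≤ d / 2 →
      ∀ (i : ℕ) (t : ℝ), t ≤ p.P (i + 1) →
        |M| * ((i + p.N0 : ℕ) : ℝ) ^ q * exp (A * ((i + p.N0 : ℕ) : ℝ) ^ 3) *
          exp (-(d * ((i + p.N0 : ℕ) : ℝ) ^ 6)) ≤ ε * exp (-p.kappa c t) := by
  obtain ⟨N₁, h⟩ := exists_exp_margin (half_pos hd) A M q hε
  refine ⟨N₁, fun p c hp hc hcd i t ht => ?_⟩
  obtain ⟨-, h2⟩ := h _ ((Nat.cast_le.2 hp).trans (p.N_le_size i))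
  set n : ℝ := ((i + p.N0 : ℕ) : ℝ) with hn
  have hk : p.kappa c t ≤ d / 2 * n ^ 6 :=
    (p.kappa_le hc ht).trans (mul_le_mul_of_nonneg_right hcd (by positivity))
  have e : exp (-(d * n ^ 6)) = exp (-(d / 2 * n ^ 6)) * exp (-(d / 2 * n ^ 6)) := by
    rw [← exp_add]; congr 1; ring
  rw [e, ← mul_assoc]
  exact mul_le_mul h2 (exp_le_exp.2 (by linarith)) (exp_pos _).le hε.le

/-- The weight for given steps and a given exponential target `d`. -/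
theorem exists_kappa (steps : List Step) {d : ℝ} (hd : 0 < d) :
    ∃ c > (0 : ℝ), c * ((⟨steps, 0⟩ : Params).durSum + 3) ≤ d / 2 ∧
      ∀ (A M ε : ℝ) (q : ℕ), 0 < ε → ∃ N₁ : ℕ, ∀ N, N₁ ≤ N →
        let p : Params := ⟨steps, N⟩
        Continuous (p.kappa c) ∧ (∀ t, 0 ≤ p.kappa c t) ∧
        (∀ s t, |p.kappa c s - p.kappa c t| ≤ |s - t| / 4) ∧
        (∀ t, 0 ≤ t → M * exp (-(p.kappa c t / 2)) ≤ ε * p.tail t) ∧
        (∀ i t, p.P i ≤ t → A * ((i + p.N0 : ℕ) : ℝ) ^ 3 ≤ p.kappa c t / 4 ∧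
          |M| * ((i + p.N0 : ℕ) : ℝ) ^ q * exp (A * ((i + p.N0 : ℕ) : ℝ) ^ 3) *
            exp (-(p.kappa c t / 4)) ≤ ε) ∧
        ∀ i t, t ≤ p.P (i + 1) →
          |M| * ((i + p.N0 : ℕ) : ℝ) ^ q * exp (A * ((i + p.N0 : ℕ) : ℝ) ^ 3) *
            exp (-(d * ((i + p.N0 : ℕ) : ℝ) ^ 6)) ≤ ε * exp (-p.kappa c t) := by
  set D := (⟨steps, 0⟩ : Params).durSum + 3 with hD
  have hD3 : 3 ≤ D := by
    rw [hD]; linarith [(⟨steps, 0⟩ : Params).durSum_nonneg]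
  refine ⟨d / 2 / D, by positivity, (div_mul_cancel₀ _ (by positivity)).le, ?_⟩
  intro A M ε q hε
  set c := d / 2 / D with hc
  have hc0 : 0 < c := by positivity
  obtain ⟨N₁, h1⟩ := exists_kappa_tail hc0 M hε
  obtain ⟨N₂, h2⟩ := exists_kappa_margin hc0 A M q hε
  obtain ⟨N₃, h3⟩ := exists_kappa_target hd A M q hε
  obtain ⟨N₄, h4⟩ := exists_nat_ge (4 * c)
  refine ⟨N₁ + N₂ + N₃ + N₄, fun N hN => ?_⟩
  intro p
  have hpN : p.N = N := rfl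
  have hcd : c * (p.durSum + 3) ≤ d / 2 := by
    have : p.durSum + 3 = D := rfl
    rw [this, hc, div_mul_cancel₀ _ (by positivity)]
  refine ⟨p.continuous_kappa c, p.kappa_nonneg hc0.le, p.kappa_lip hc0.le ?_,
    h1 p (by omega), h2 p (by omega), h3 p c (by omega) hc0.le hcd⟩
  exact h4.trans (by exact_mod_cast (show N₄ ≤ p.N0 by unfold Params.N0; omega))

end

end Vale.Agent.P225.Sched
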