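import Vale.Agent.P225.Assembly.PlanInst
import Vale.Agent.P225.Assembly.LabelBasis
import Vale.Agent.P225.Assembly.Kappa
import Vale.Agent.P225.Assembly.Final
import Vale.Agent.P225.Geo.SchedGlue
import Vale.Agent.P225.FP.FlowInst
import Vale.Agent.P225.Sched.Designed
import Vale.Agent.P225.Sched.Compare.Defs

/-!
P225, assembly: the counterexample from a design, the fixed point, the comparison of the regular
solutions with the scalar model, and the local right inverses.
-/

namespace Vale.Agent.P225.Assembly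

open Sched Filter
open scoped Topology

noncomputable section

/-- Degrees `1, …, Jc - 1` are controlled exactly. -/
def Jc : ℕ := 330

/-- The fixed constants, with multiplicative constant `K` and weight `W`. -/
def consts (K W : ℝ) : FP.Consts where
  J := Jc
  K := max K 64
  one_le_K := le_trans (by norm_num) (le_max_right K 64)
  Λ := 206
  Λ_nonneg := by norm_num
  Γ := 990
  Γ_nonneg := by norm_num
  μ := 1 / 4
  μ_pos := by norm_num
  W := max W 1
  one_le_W := le_max_right W 1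

theorem flowOk (K W : ℝ) : Params.FlowOk (consts K W) where
  K_ge := le_trans (by norm_num) (le_max_right K 64)
  μ_le := le_rfl
  J_ge := by norm_num [consts, Jc]
  Λ_le := by norm_num [consts, Jc]
  Γ_ge := by norm_num [consts, Jc]

variable (H : Harm) (D : Design)

/-- The end of composite `c`, the period size there, and the start of composite `c`. -/
def size (N c : ℕ) : ℝ := ((c / (3 * D.T) + (D.params N).N0 : ℕ) : ℝ)

/-- The start of composite `c`. -/
def startA (N c : ℕ) : ℝ := (D.params N).time (D.begIdx c)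

/-- Slots per composite. -/
def slots : ℕ := D.groups * D.words.length

/-- The local right inverses of the jump maps, with cost `exp (O (n ^ 3))`. -/
def LocalInverse (P : Pulses) (Λ : Fin D.d → (j : ℕ) → V j) : Prop :=
  ∃ A₀ K₀ : ℝ, 0 ≤ A₀ ∧ 0 ≤ K₀ ∧ ∀ K W : ℝ, ∃ N₁ : ℕ, ∀ N, N₁ ≤ N →
    ∀ (h : (D.params N).Ok) (L : (j : ℕ) → EuclideanSpace ℝ (Fin D.d) →L[ℝ] V j),
      (∀ j, j < Jc → ∀ l, L j (EuclideanSpace.single l 1) = Λ l j) → (∀ j, Jc ≤ j → L j = 0) →
      ∃ R : ℕ → ((j : ℕ) → EuclideanSpace ℝ (Fin D.d) →L[ℝ] V j) →ₗ[ℝ] (ℕ → Fin P.n → ℝ),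
        (∀ c Z n, (n < c * slots D ∨ (c + 1) * slots D ≤ n) → R c Z n = 0) ∧
        (∀ c Z j, 1 ≤ j → j < Jc →
          ((Params.flow H h (flowOk K W)).Φ j (startA D N c)).comp
            (FP.jump (Params.flow H h (flowOk K W)) (D.params N).slotPos (R c Z) (startA D N c)
              ((D.plan N).τ c)
              (FP.frozen (Params.flow H h (flowOk K W))
                fun j => (L j).comp ((D.plan N).refFrame.Ψ (startA D N c)))
              (FP.frozenD (Params.flow H h (flowOk K W))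
                fun j => (L j).comp ((D.plan N).refFrame.Ψ (startA D N c))) j) = Z j) ∧
        ∀ c Z (r : ℕ → ℝ), (∀ j, j < Jc → ‖Z j‖ ≤ r j) → ∀ n l,
          |R c Z n l| ≤ K₀ * Real.exp (A₀ * size D N c ^ 3) * ∑ j ∈ Finset.range Jc, r j

/-- A bound for the regular solutions on the labels against the scalar model, uniform in `N`. -/
def ScalarModel (Λ : Fin D.d → (j : ℕ) → V j) : Prop :=
  ∃ KΓ : ℝ, 0 < KΓ ∧ ∀ (K W : ℝ) (N : ℕ) (h : (D.params N).Ok), ∀ j < Jc, ∀ t l,
    ‖(Params.flow H h (flowOk K W)).Φ j t (Λ l j)‖ ≤ KΓ * Real.exp ((D.plan N).E l t)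

/-- The slots of a composite lie inside it. -/
def SlotLayout : Prop :=
  ∀ N : ℕ, (D.params N).slotList ≠ [] ∧ ∀ c n, c * slots D ≤ n → n < (c + 1) * slots D →
    startA D N c ≤ (D.params N).slotPos n ∧ (D.params N).slotPos n + 1 ≤ (D.plan N).τ c

/-- Harmonic functions from the solutions of the fixed point. -/
def FamilyStmt : Prop :=
  ∀ {sh : Shape} {C : FP.Consts} (F : FP.Flow H sh C),
    (∀ j t, t ≤ 0 → F.Φ j t = Real.exp ((j : ℝ) * t) • ContinuousLinearMap.id ℝ (V j)) →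
    H.C < C.W → ∀ {P : Pulses} {d d' : ℕ} {ε : ℝ} (pl : FP.Plan F P d d' ε), 0 ≤ pl.a 0 →
    ∀ (A : Amps P), IsMetric (fullFlux H sh A) → ∀ {M : ℝ}, 0 ≤ M →
    (∀ x : FP.EE d, ∃ u du : (j : ℕ) → ℝ → V j,
      IsModeSolution H sh A u du ∧
      (∀ j t, C.W ^ j * (‖u j t‖ + ‖du j t‖) ≤ M * ‖pl.N t x‖) ∧
      (∀ j, ∃ v : V j, ∀ t ≤ pl.a 0, u j t = F.Φ j t v ∧ du j t = F.Pj j t (F.Φ j t v)) ∧
      ∀ j, 1 ≤ j → j < C.J → ∀ t ≤ pl.a 0, u j t = F.Φ j t (pl.X 0 j x)) →
    (∃ K, ∀ t, 0 ≤ t → ∀ x, ‖pl.N t x‖ ≤ K * Real.exp (100 * t) * ‖x‖) →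
    (∀ x : FP.EE d, (∀ j, 1 ≤ j → j < C.J → pl.X 0 j x = 0) → x = 0) →
    ∃ f : Option (Fin d) → R4 → ℝ, LinearIndependent ℝ f ∧
      (∀ s, ContDiff ℝ (⊤ : ℕ∞) (f s)) ∧
      (∀ s x, ∑ i, pd i (fun y => ∑ k, fullFlux H sh A y i k * pd k (f s) y) x = 0) ∧
      ∀ s, ∃ C' : ℝ, ∀ x, 1 ≤ ‖x‖ → |f s x| ≤ C' * ‖x‖ ^ 100

theorem tail_succ_ge (p : Params) {t : ℝ} (ht : 1 ≤ t) : p.tail t / 4 ≤ p.tail (t + 1) := by
  have hb : 0 < t + (p.N0 : ℝ) ^ 8 := by positivity
  unfold Params.tail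
  have h1 : t + 1 + (p.N0 : ℝ) ^ 8 ≤ 2 * (t + (p.N0 : ℝ) ^ 8) := by
    linarith [pow_nonneg (Nat.cast_nonneg (α := ℝ) p.N0) 8]
  refine le_trans ?_ (Real.rpow_le_rpow_of_nonpos (by positivity) h1 (by norm_num))
  rw [Real.mul_rpow two_pos.le hb.le, div_eq_inv_mul]
  refine mul_le_mul_of_nonneg_right ?_ (Real.rpow_nonneg hb.le _)
  calc (4 : ℝ)⁻¹ = (2 : ℝ) ^ (-2 : ℝ) := by
        rw [Real.rpow_neg two_pos.le]; norm_num
    _ ≤ _ := Real.rpow_le_rpow_of_exponent_le one_le_two (by norm_num)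

theorem rMax_le (hJ0 : D.J0 ≤ 101) : D.rMax ≤ 206 := by
  have : (D.J0 : ℝ) ≤ 101 := by exact_mod_cast hJ0
  unfold Design.rMax
  linarith

theorem length_le (N c : ℕ) :
    (D.plan N).τ c ≤ startA D N c + 2 * D.L * size D N c ^ 3 := D.comp_time_le (N := N) c

theorem begIdx_zero : D.begIdx 0 = 1 := by simp [Design.begIdx]

/-- The counterexample from the inputs. -/
theorem counterexample_of (hgoal : FP.Goal) (hfam : FamilyStmt H) (P : Pulses)
    (Λ : Fin D.d → (j : ℕ) → V j) (hJ0 : D.J0 ≤ 101) (hslots : 0 < slots D)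
    (hlay : SlotLayout D) (hmodel : ScalarModel H D Λ) (hlocal : LocalInverse H D P Λ)
    (hsep : ∀ x : EuclideanSpace ℝ (Fin D.d),
      (∀ j, 1 ≤ j → j < Jc → ∑ l, x l • Λ l j = 0) → x = 0)
    (hoff : ∀ l, Λ l 0 = 0) {q : ℕ} (hq : 0 < q) (hcyc : ∀ N, (D.plan N).cyc ^ q = 1)
    (hmean : ∀ N s, ∑ i ∈ Finset.range q,
      rateInf (D.deg (((D.plan N).cyc ^ i) s)) ≤ 99 * q)
    (hcard : euclideanCount 100 < D.d + 1) : Counterexample := by
  obtain ⟨KΓ, hKΓ, hmodel⟩ := hmodel
  obtain ⟨A₀, K₀, hA₀, hK₀, hlocal⟩ := hlocal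
  obtain ⟨dd, aa, bb, hdd, haa, hbb, hglue⟩ := Geo.exists_sched_glue H P
  set C := consts (KΓ * D.d * Real.exp 1) (H.C + 1) with hCdef
  obtain ⟨ε₀, hε₀, M, hM, hgoal⟩ := hgoal H P C
  obtain ⟨κc, hκc, hκd, hκ⟩ := exists_kappa D.steps one_pos
  -- constants of the smallness conditions
  set len : ℝ := 2 * D.L with hlen
  set Γ' : ℝ := 4 * C.Γ + 4 * C.Λ + 2 with hΓ'
  have hΓ'0 : 0 < Γ' := by simp [hΓ', hCdef, consts]; norm_num
  set A := A₀ + Γ' * len with hA
  have hA0 : 0 ≤ A := by positivity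
  set Mu : ℝ := K₀ + KΓ * D.d * Real.exp 1 + K₀ * (Jc * (KΓ * D.d * Real.exp 1)) with hMu
  obtain ⟨N₁, hN₁⟩ := hκ A Mu ε₀ 0 hε₀
  obtain ⟨N₂, hN₂⟩ := hκ 0 (M * ε₀) (dd / 4) 0 (by positivity)
  obtain ⟨N₃, hN₃⟩ := Params.exists_ok D.steps D.steps_valid
  obtain ⟨N₄, hN₄⟩ := hlocal (KΓ * D.d * Real.exp 1) (H.C + 1)
  have hS : Tendsto (fun N : ℕ => 6 * (D.T : ℝ) * Real.exp (-((N : ℝ) + 1))) atTop (𝓝 0) := by
    simpa using ((Real.tendsto_exp_neg_atTop_nhds_zero.comp
      (tendsto_atTop_add_const_right _ 1 tendsto_natCast_atTop_atTop)).const_mul (6 * (D.T : ℝ)))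
  obtain ⟨N₅, hN₅⟩ := eventually_atTop.1 (hS.eventually_le_const zero_lt_one)
  set N := N₁ + N₂ + N₃ + N₄ + N₅ with hN
  have h : (D.params N).Ok := hN₃ N (by omega)
  set p := D.params N with hp
  set F := Params.flow H h (flowOk (KΓ * D.d * Real.exp 1) (H.C + 1)) with hF
  set L : (j : ℕ) → EuclideanSpace ℝ (Fin D.d) →L[ℝ] V j := fun j =>
    if j < Jc then ∑ l, (EuclideanSpace.proj (𝕜 := ℝ) l).smulRight (Λ l j) else 0 with hL
  have hLx : ∀ j, j < Jc → ∀ x, L j x = ∑ l, x l • Λ l j := fun j hj x => by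
    simp [hL, hj]
  have hLs : ∀ j, j < Jc → ∀ l, L j (EuclideanSpace.single l 1) = Λ l j := fun j hj l => by
    simp [hLx j hj]
  obtain ⟨R, hRs, hRr, hRl⟩ := hN₄ N (by omega) h L hLs fun j hj => if_neg (Nat.not_lt.2 hj)
  obtain ⟨hκcont, hκnn, hκlip, -, hκmar, hκtar⟩ := hN₁ N (by omega)
  obtain ⟨-, -, -, hκtl, -, -⟩ := hN₂ N (by omega)
  have hκ0 : ∀ t, 0 ≤ p.kappa κc t := hκnn
  have hκtail : ∀ t, 0 ≤ t → M * ε₀ * Real.exp (-(p.kappa κc t / 2)) ≤ dd / 4 * p.tail t := hκtl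
  have hS1 : Design.sumBd h ≤ 1 := by
    refine le_trans (le_of_eq ?_) (hN₅ N (by omega))
    simp [Design.sumBd, Params.N0, Design.params]
  have hmem : ∀ c, p.P (c / (3 * D.T)) ≤ startA D N c ∧
      (D.plan N).τ c ≤ p.P (c / (3 * D.T) + 1) := by
    intro c
    obtain ⟨i, r, s, hr, hs, -, hi, hb, he⟩ := D.idx_split N c
    have hlen' := D.params_len (N := N)
    have hst := D.steps_length
    have hsr : (r + 1) * (3 * (D.L + 1)) ≤ D.T * (3 * (D.L + 1)) := Nat.mul_le_mul_right _ hr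
    have hs1 : (s + 1) * (D.L + 1) ≤ 3 * (D.L + 1) := Nat.mul_le_mul_right _ hs
    rw [hi]
    refine ⟨?_, ?_⟩
    · rw [startA, hb]
      exact p.time_strictMono.monotone (by simp only [hp]; omega)
    · show p.time (D.endIdx c) ≤ _
      rw [he, ← p.start_len]
      exact p.time_strictMono.monotone (by rw [Nat.succ_mul] at hsr; simp only [hp]; omega)
  have htar : ∀ c t, t ≤ p.P (c / (3 * D.T) + 1) →
      |Mu| * Real.exp (A * size D N c ^ 3) * Real.exp (-(1 * size D N c ^ 6)) ≤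
        ε₀ * Real.exp (-p.kappa κc t) := fun c t ht => by
    have := hκtar _ t ht
    rwa [pow_zero, mul_one] at this
  have hmar : ∀ c, A * size D N c ^ 3 ≤ p.kappa κc (startA D N c) / 4 ∧
      |Mu| * Real.exp (A * size D N c ^ 3) * Real.exp (-(p.kappa κc (startA D N c) / 4)) ≤ ε₀ :=
    fun c => by
    obtain ⟨h1, h2⟩ := hκmar _ _ (hmem c).1
    rw [pow_zero, mul_one] at h2
    exact ⟨h1, h2⟩
  have hlen3 : ∀ c, Γ' * ((D.plan N).τ c - startA D N c) ≤
      Γ' * len * size D N c ^ 3 := fun c => by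
    rw [mul_assoc]
    refine mul_le_mul_of_nonneg_left ?_ hΓ'0.le
    linarith [length_le D N c]
  have hA3 : ∀ c, A₀ * size D N c ^ 3 + Γ' * ((D.plan N).τ c - startA D N c) ≤
      A * size D N c ^ 3 := fun c => by
    rw [hA, add_mul]; linarith [hlen3 c]
  let dat : PlanData F P D.d (D.plan N) := {
    pos := p.slotPos
    pos_start := p.slotPos_start 0
    pos_gap := p.slotPos_gap (hlay N).1
    first := fun c => c * slots D
    first_zero := Nat.zero_mul _
    first_mono := fun a b hab => Nat.mul_lt_mul_of_pos_right hab hslots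
    a := startA D N
    slot_mem := fun c n h1 h2 => (hlay N).2 c n h1 h2
    order := fun c => (Design.windows h).τ_le c
    W := Design.windows h
    lo_eq := fun c => rfl
    S_le := hS1
    L := L
    L_off := fun j hj => by
      rcases hj with rfl | hj
      · refine ContinuousLinearMap.ext fun x => (hLx 0 (Nat.succ_pos _) x).trans ?_
        simp [hoff]
      · exact if_neg (Nat.not_lt.2 hj)
    KΓ := KΓ
    KΓ_pos := hKΓ
    L_le := fun j hj t l => by
      rw [hLs j hj]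
      exact hmodel _ _ N h j hj t l
    K_big := ⟨le_max_left _ _, by
      refine le_trans ?_ (le_max_right _ 64)
      rw [show (3 : ℝ) = ((3 : ℕ) : ℝ) * 1 by norm_num, Real.exp_nat_mul]
      exact (pow_le_pow_left₀ (Real.exp_pos 1).le Real.exp_one_lt_three.le 3).trans (by norm_num)⟩
    E_lo := Design.plan_lo h
    E_up := fun l s t hst => (Design.plan_up h l s t hst).trans
      (mul_le_mul_of_nonneg_right (rMax_le D hJ0) (by linarith))
    E_cont := fun l => h.continuous_expoR (D.wt_le l)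
    κ := p.kappa κc
    κ_cont := hκcont
    κ_nonneg := hκ0
    κ_lip := hκlip
    R := R
    ρ := fun c => K₀ * Real.exp (A₀ * size D N c ^ 3)
    ρ_nonneg := fun c => by positivity
    R_supp := hRs
    R_right := hRr
    R_le := hRl
    ε := ε₀
    dX_small := fun c t ht => by
      have h1 := htar c t (ht.2.trans (hmem c).2)
      have h2 : KΓ * D.d * Real.exp 1 * Real.exp (-(size D N c) ^ 6) ≤
          |Mu| * Real.exp (A * size D N c ^ 3) * Real.exp (-(1 * size D N c ^ 6)) := by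
        rw [one_mul]
        refine mul_le_mul_of_nonneg_right ?_ (Real.exp_pos _).le
        refine le_trans ?_ (le_mul_of_one_le_right (abs_nonneg _) (Real.one_le_exp (by
          have : 0 ≤ size D N c := Nat.cast_nonneg _
          positivity)))
        refine le_trans ?_ (le_abs_self _)
        rw [hMu]
        have : 0 ≤ K₀ * (Jc * (KΓ * D.d * Real.exp 1)) := by positivity
        linarith
      refine le_trans (le_of_eq ?_) (h2.trans (h1.trans ?_))
      · show KΓ * D.d * (Real.exp (-(size D N c) ^ 6) * Real.exp 1) = _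
        ring
      · exact mul_le_mul_of_nonneg_left (Real.exp_le_exp.2 (by linarith [hκ0 t])) hε₀.le
    ρ_small := fun c => by
      obtain ⟨h1, h2⟩ := hmar c
      have h3 : K₀ * Real.exp (A₀ * size D N c ^ 3) *
          Real.exp (Γ' * ((D.plan N).τ c - startA D N c)) ≤
            |Mu| * Real.exp (A * size D N c ^ 3) := by
        rw [mul_assoc, ← Real.exp_add]
        refine mul_le_mul (le_trans ?_ (le_abs_self _)) (Real.exp_le_exp.2 (hA3 c))
          (Real.exp_pos _).le (abs_nonneg _)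
        rw [hMu]
        have : 0 ≤ KΓ * D.d * Real.exp 1 := by positivity
        have : 0 ≤ K₀ * (Jc * (KΓ * D.d * Real.exp 1)) := by positivity
        linarith
      refine le_trans (mul_le_mul h3 ?_ (Real.exp_pos _).le (by positivity)) h2
      exact Real.exp_le_exp.2 (by linarith [hκ0 (startA D N c)])
    len_small := fun c => by
      obtain ⟨h1, -⟩ := hmar c
      have : 0 ≤ A₀ * size D N c ^ 3 := mul_nonneg hA₀ (pow_nonneg (Nat.cast_nonneg _) 3)
      show Γ' * _ ≤ _
      linarith [hA3 c, hκ0 (startA D N c)]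
    target_small := fun c => by
      have hac : startA D N c ≤ (D.plan N).τ c :=
        (((Design.windows h).lo_le c)).trans (by linarith)
      have h1 := htar c (startA D N c) (hac.trans (hmem c).2)
      have e : K₀ * Real.exp (A₀ * size D N c ^ 3) *
          ((Jc : ℝ) * (KΓ * D.d * (Real.exp (-(size D N c) ^ 6) * Real.exp 1))) =
          K₀ * (Jc * (KΓ * D.d * Real.exp 1)) * Real.exp (A₀ * size D N c ^ 3) *
            Real.exp (-(1 * size D N c ^ 6)) := by
        rw [one_mul]; ring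
      refine le_trans (le_of_eq e) (le_trans (mul_le_mul_of_nonneg_right ?_ (Real.exp_pos _).le) h1)
      · refine mul_le_mul (le_trans ?_ (le_abs_self _)) (Real.exp_le_exp.2 ?_) (Real.exp_pos _).le
          (abs_nonneg _)
        · rw [hMu]
          have : 0 ≤ KΓ * D.d * Real.exp 1 := by positivity
          linarith
        · refine mul_le_mul_of_nonneg_right ?_ (pow_nonneg (Nat.cast_nonneg _) 3)
          rw [hA]
          exact le_add_of_nonneg_right (mul_nonneg hΓ'0.le (by positivity)) }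
  obtain ⟨A', hApos, hθ, hsol⟩ := hgoal p.shape F D.d D.d ε₀ dat.plan hε₀.le le_rfl
  have hApos' : A'.pos = p.slotPos := hApos
  have hsmall : ∀ n l, |A'.θ n l| ≤ dd * p.tail (p.slotPos n + 1) := fun n l => by
    have ht : 1 ≤ p.slotPos n := p.slotPos_start n
    refine (hθ n l).trans ((hκtail _ (by linarith : (0 : ℝ) ≤ p.slotPos n)).trans ?_)
    have := mul_le_mul_of_nonneg_left (tail_succ_ge p ht) hdd.le
    linarith
  obtain ⟨hmet, hlow, hup, hric⟩ := hglue p h (hlay N).1 A'.θ hsmall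
  have hAeq : p.amps (hlay N).1 P A'.θ = A' := by
    obtain ⟨pos, h1, h2, θ⟩ := A'
    simp only at hApos'
    subst hApos'
    rfl
  rw [hAeq] at hmet hlow hup hric
  have ha0 : 0 ≤ startA D N 0 := le_trans (Nat.cast_nonneg _) (p.N0_le_time _)
  obtain ⟨Cg, hCg⟩ := Design.path_growth h (by norm_num : (0 : ℝ) ≤ 99) hq (hcyc N) (hmean N)
    (δ := 1) one_pos
  obtain ⟨f, hli, hsm, hdiv, hgrow⟩ := hfam F (fun j t ht => by
      rw [hF, Params.flow_Φ, (Params.coeff H h j).Phi_start ht]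
      rfl)
    (lt_of_lt_of_le (lt_add_one H.C) (le_max_left _ _)) dat.plan ha0 A' hmet hM hsol
    ⟨Cg, fun t ht x => by
      have := hCg t ht x
      norm_num at this
      exact this⟩
    (fun x hx => hsep x fun j h1 h2 => by
      have := hx j h1 h2
      simpa [PlanData.plan, PlanData.X, dat, Growth.Plan.X, hLx j h2] using this)
  refine counterexample_of_flux _ hmet hric ⟨aa, bb, haa, hbb, fun x v => ⟨hlow x v, hup x v⟩⟩
    ?_ f hli hsm hdiv hgrow
  simpa [Fintype.card_option] using hcard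

end

end Vale.Agent.P225.Assembly
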