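import Vale.Agent.P225.Assembly.SlotsNear
import Vale.Agent.P225.Assembly.Main
import Vale.Agent.P225.Assembly.DesignInst

/-!
P225, assembly: the local right inverses for the design on the labels.

Groups and words of the design come from the controllability of the degrees `1, …, Jc - 1`.
-/

namespace Vale.Agent.P225.Assembly

open Vale.Agent.P225.Sched Vale.Agent.P225.Control

noncomputable section

theorem deg_labelling {n : ℕ} (hn : 101 ≤ n) (l : Fin (Fintype.card Label)) :
    1 ≤ labelling.deg l ∧ labelling.deg l ≤ n :=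
  ⟨Label.one_le_deg _, (Label.deg_le _).trans hn⟩

/-- The labels vanish above their degrees. -/
theorem map_eq_zero {ι : Type} [Fintype ι] (Lb : Labelling ι) (H : Harm) {j : ℕ}
    (hj : ∀ l, Lb.deg l ≠ j) : Lb.map H j = 0 := by
  refine ContinuousLinearMap.ext fun x => ?_
  rw [Lb.map_apply, zero_apply]
  exact Finset.sum_eq_zero fun l _ => by rw [Lb.vec_of_ne H (hj l), smul_zero]

/-- The local right inverses, with `n + 1 = Jc`. -/
theorem exists_localInverse_design (H : Harm) (hcmp : CompareStmt H) {n : ℕ} (hn : n + 1 = Jc) :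
    ∃ (G : ℕ) (hG : 0 < G) (words : List Word) (hw : words ≠ []),
      LocalInverse H (design G hG words hw) (ctrlPulses (64 / 49) n)
        (fun l j => labelling.vec H j l) := by
  have hn' : 101 ≤ n := by rw [Jc] at hn; omega
  obtain ⟨W, hnil, K₀, Λ₀, hK₀, hΛ₀, hW⟩ := exists_localInverse (n := n) labelling H
    (c := 64 / 49) (by norm_num) sigmaB deltaB (fun a _ => sigmaB_ne_zero (a + 1))
    (deg_labelling hn')
  have hG : 0 < (Control.groups (64 / 49) n).card :=
    Finset.card_pos.2 ⟨_, gap_mem_groups (64 / 49) n ⟨0, by omega⟩ ⟨0, by omega⟩⟩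
  refine ⟨(Control.groups (64 / 49) n).card, hG, wordList W, wordList_ne W hnil, ?_⟩
  set D := design (Control.groups (64 / 49) n).card hG (wordList W) (wordList_ne W hnil) with hD
  refine ⟨Λ₀ * (2 * D.recipe.L), K₀, by positivity, hK₀, fun K Wt => ?_⟩
  obtain ⟨N₁, hN₁⟩ := hW D.recipe (flowOk K Wt) hn.symm rfl (wordList_length W)
    (slotsNear H D.recipe (flowOk K Wt) W rfl rfl hcmp) (gamNear_of_compare H D.recipe n hcmp)
  refine ⟨N₁, fun N hN h L hL hL0 => ?_⟩
  obtain ⟨Ri, hsupp, hright, hle⟩ := hN₁ N hN h (D.plan N) (fun l t => rfl)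
    (fun q => (D.compB_eq N q).symm)
  have hLmap : L = fun j => labelling.map H j := funext fun j => by
    rcases lt_or_ge j Jc with hj | hj
    · refine ContinuousLinearMap.coe_injective
        ((EuclideanSpace.basisFun (Fin (Fintype.card Label)) ℝ).toBasis.ext fun l => ?_)
      rw [OrthonormalBasis.coe_toBasis, EuclideanSpace.basisFun_apply]
      exact (hL j hj l).trans (labelling.map_single H j l).symm
    · refine (hL0 j hj).trans (map_eq_zero labelling H fun l => ?_).symm
      have := (deg_labelling hn' l).2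
      omega
  subst hLmap
  have hA : ∀ c, D.recipe.compA N c = startA D N c := fun c => D.compA_eq N c
  refine ⟨Ri, fun c Z k hk => hsupp c Z k hk, fun c Z j h1 h2 => ?_, fun c Z r hr k l => ?_⟩
  · rw [← hA c]
    exact hright c Z j h1 h2
  · have e : size D N c = ((D.recipe.per c + (D.recipe.params N).N0 : ℕ) : ℝ) := by
      rw [D.recipe_per]; rfl
    rw [e]
    exact hle c Z r hr k l

end

end Vale.Agent.P225.Assembly
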