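import Vale.Agent.P225.Assembly.LocalSlots
import Vale.Agent.P225.Assembly.LabelBasis
import Vale.Agent.P225.Control.BridgeMain
import Vale.Agent.P225.Sched.Norming

/-!
P225, assembly: right inverses of the jump maps in the frames of the composite starts.

At the start `a` of a composite the label `l` reads `Φ(a) e^{-E l a} v_l = gam(a) v_l`, and `gam(a)`
is close to the identity. With the slots close to their limits, `composite_jump_main` gives
`R q` of size `K exp (A n ^ 3)`, `n` the size of the period of composite `q`.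
-/

namespace Vale.Agent.P225.Assembly

open Vale.Agent.P225.Sched Vale.Agent.P225.Control
open scoped RealInnerProductSpace

noncomputable section

-- needed to find the operator norm on maps between products
set_option maxSynthPendingDepth 3

variable (H : Harm) {C : FP.Consts}

/-- The slots of every composite are close to their limits. -/
def SlotsNear (R : Recipe) (hC : Params.FlowOk C) (σ δ : ℕ → ℝ) (c : ℝ) (n : ℕ)
    (W : Finset Word) : Prop :=
  ∀ ε > (0 : ℝ), ∃ N₁, ∀ N ≥ N₁, ∀ h : (R.params N).Ok, ∀ (q : ℕ) (g : Control.groups c n) (w : W),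
    SlotNear (Params.flow H h hC) σ δ c n (R.compA N q)
      ((R.params N).slotPos (R.slotAt q g w)) (R.slotTau N q g w) ε w

/-- The regular solutions follow the scalar flow at the starts of the composites. -/
def GamNear (R : Recipe) (n : ℕ) : Prop :=
  ∀ ε > (0 : ℝ), ∃ N₁, ∀ N ≥ N₁, ∀ h : (R.params N).Ok, ∀ (q : ℕ) (a : Fin n),
    ‖gam H (Params.coeff H h (a.val + 1)) (qW (R.params N).shape (a.val + 1)) (R.compA N q) - 1‖ ≤ ε

/-- The comparison gives `GamNear`, as the words are closed. -/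
theorem gamNear_of_compare (R : Recipe) (n : ℕ) (hcmp : CompareStmt H) : GamNear H R n := by
  intro ε hε
  choose K hK using fun a : Fin n =>
    hcmp R.steps (a.val + 1) (Nat.le_add_left 1 _) (recipe_steps_prefix H (a.val + 1) R)
  obtain ⟨N₁, hN₁⟩ := exists_nat_ge ((∑ a, |K a|) / ε)
  refine ⟨N₁, fun N hN h q a => ?_⟩
  have hspec := fun m (hm : m ≤ a.val + 1) => h.qW_spec (j := a.val + 1) hm
  obtain ⟨-, hk⟩ := hK a N h (R.params N).shape (qW (R.params N).shape (a.val + 1))
    (Params.coeff H h (a.val + 1)) rfl rfl (fun _ => rfl)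
    ⟨fun m hm => (hspec m hm).1, fun m hm => (hspec m hm).2.1, fun m hm => (hspec m hm).2.2⟩
    ⟨fun _ => rfl, fun _ => rfl, rfl⟩
  have hoff := R.off_end_le (R.idx_lt q)
  have hg := (hk (R.per q) (R.off (R.idx q)) (by omega)).1
  rw [(recipe_start H (a.val + 1) R (R.idx_lt q)).1] at hg
  refine hg.trans ?_
  rw [div_le_iff₀ (by positivity)]
  have h1 : K a ≤ ∑ a, |K a| := (le_abs_self _).trans
    (Finset.single_le_sum (fun b _ => abs_nonneg (K b)) (Finset.mem_univ a))
  rw [div_le_iff₀ hε] at hN₁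
  have h2 : (N₁ : ℝ) ≤ N := by exact_mod_cast hN
  nlinarith [mul_le_mul_of_nonneg_right h2 hε.le, sq_nonneg (N : ℝ)]

variable {H}

/-- A function of the weight acts on an eigenvector as a number. -/
theorem diagW_eigen {j m : ℕ} (f : ℕ → ℝ) {v : V j}
    (hv : H.ER j 0 (H.ER j 0 v) = (-((m : ℝ) ^ 2)) • v) : diagW H j f v = f m • v := by
  ext i
  rw [diagW_apply, PiLp.smul_apply, smul_eq_mul]
  by_cases hi : H.wt j i = m
  · rw [hi]
  · have h2 := congrArg (fun z : V j => z i) hv
    simp only [H.eigen_coord, PiLp.smul_apply, smul_eq_mul] at h2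
    have hne : ((H.wt j i : ℝ) ^ 2) ≠ (m : ℝ) ^ 2 := fun h => hi (by
      exact_mod_cast (pow_left_inj₀ (Nat.cast_nonneg _) (Nat.cast_nonneg _) two_ne_zero).1 h)
    have h3 : ((m : ℝ) ^ 2 - (H.wt j i : ℝ) ^ 2) * v i = 0 := by linarith
    rw [(mul_eq_zero.1 h3).resolve_left (sub_ne_zero.2 (Ne.symm hne)), mul_zero, mul_zero]

variable {d n : ℕ} (Lb : Labelling (Fin d))

/-- The coordinates of a vector of degree `a + 1` in the labels. -/
def labelCoords (H : Harm) (a : Fin n) : Lb.space H (a.val + 1) →L[ℝ] FP.EE d :=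
  (∑ l, (innerSL ℝ (Lb.vec H (a.val + 1) l)).smulRight (EuclideanSpace.single l (1 : ℝ))).comp
    (Lb.space H (a.val + 1)).subtypeL

theorem labelCoords_apply (a : Fin n) (z : Lb.space H (a.val + 1)) (l : Fin d) :
    labelCoords Lb H a z l = ⟪Lb.vec H (a.val + 1) l, (z : V (a.val + 1))⟫ := by
  simp [labelCoords, Finset.sum_apply, Pi.single_apply]

theorem norm_labelCoords_le (a : Fin n) (z : Lb.space H (a.val + 1)) :
    ‖labelCoords Lb H a z‖ ≤ ‖z‖ := by
  classical
  refine (pow_le_pow_iff_left₀ (norm_nonneg _) (norm_nonneg _) two_ne_zero).1 ?_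
  rw [EuclideanSpace.norm_sq_eq]
  simp only [labelCoords_apply, Real.norm_eq_abs, sq_abs]
  have hb := (Lb.orthonormal_vec H (a.val + 1)).sum_inner_products_le (z : V (a.val + 1))
    (s := (Finset.univ : Finset {l // Lb.deg l = a.val + 1}))
  simp only [Real.norm_eq_abs, sq_abs] at hb
  refine le_trans (le_of_eq ?_) hb
  rw [← Finset.sum_filter_add_sum_filter_not Finset.univ (fun l => Lb.deg l = a.val + 1),
    Finset.sum_subtype (Finset.univ.filter fun l => Lb.deg l = a.val + 1)
      (p := fun l => Lb.deg l = a.val + 1) (fun l => by simp)]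
  refine add_eq_left.2 (Finset.sum_eq_zero fun l hl => ?_)
  rw [Lb.vec_of_ne H (Finset.mem_filter.1 hl).2, inner_zero_left, sq, zero_mul]

theorem sum_labelCoords (hdeg : ∀ l, 1 ≤ Lb.deg l ∧ Lb.deg l ≤ n) :
    ∑ a : Fin n, (labelCoords Lb H a).comp ((Lb.map H (a.val + 1)).codRestrict
      (Lb.space H (a.val + 1)) (Lb.map_mem_space H (a.val + 1))) =
      ContinuousLinearMap.id ℝ (FP.EE d) := by
  classical
  ext x l
  simp only [sum_apply, ContinuousLinearMap.comp_apply, WithLp.ofLp_sum, Finset.sum_apply,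
    labelCoords_apply, ContinuousLinearMap.coe_codRestrict_apply, ContinuousLinearMap.id_apply]
  obtain ⟨h1, h2⟩ := hdeg l
  rw [Finset.sum_eq_single (⟨Lb.deg l - 1, by omega⟩ : Fin n)]
  · have e : Lb.deg l = Lb.deg l - 1 + 1 := by omega
    exact Lb.inner_vec_map H e x
  · intro a _ ha
    rw [Lb.vec_of_ne H, inner_zero_left]
    exact fun e => ha (Fin.ext (by simp only; omega))
  · simp

/-- At the start of a composite the labels read `gam`. -/
theorem frame_map {p : Params} (h : p.Ok) (g : Growth.Plan (Fin d))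
    (hE : ∀ l t, g.E l t = expoR p.shape (Lb.deg l) (Lb.wt l) t) (j : ℕ) (t : ℝ) :
    ((Params.coeff H h j).Phi t).comp ((Lb.map H j).comp (g.refFrame.Ψ t)) =
      (gam H (Params.coeff H h j) (qW p.shape j) t).comp (Lb.map H j) := by
  classical
  refine ContinuousLinearMap.coe_injective
    ((EuclideanSpace.basisFun (Fin d) ℝ).toBasis.ext fun l => ?_)
  simp only [OrthonormalBasis.coe_toBasis, EuclideanSpace.basisFun_apply,
    ContinuousLinearMap.coe_coe, ContinuousLinearMap.comp_apply]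
  have hΨ : g.refFrame.Ψ t (EuclideanSpace.single l 1) =
      Real.exp (-g.E l t) • EuclideanSpace.single l (1 : ℝ) := by
    ext b
    simp only [Growth.Plan.refFrame, Growth.diag_apply, PiLp.smul_apply, smul_eq_mul,
      PiLp.single_apply]
    split_ifs with hb <;> simp [hb]
  rw [hΨ, map_smul, map_smul, Lb.map_single]
  by_cases hj : Lb.deg l = j
  · subst hj
    rw [gam, scalarFlowInv, mul_apply_eq_comp,
      diagW_eigen _ (Lb.eigen_vec H (Lb.deg l) l), map_smul, hE]
    rfl
  · simp [Lb.vec_of_ne H hj]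

/-- Right inverses of the jumps at the composite starts, of size `K exp (A n ^ 3)`. -/
theorem exists_localInverse (H : Harm) {c : ℝ} (hc : 0 < c) (σ δ : ℕ → ℝ)
    (hσ : ∀ a, a < n → σ (a + 1) ≠ 0) (hdeg : ∀ l, 1 ≤ Lb.deg l ∧ Lb.deg l ≤ n) :
    ∃ W : Finset Word, [] ∈ W ∧ ∃ K Λ : ℝ, 0 ≤ K ∧ 0 ≤ Λ ∧
      ∀ (R : Recipe) {C : FP.Consts} (hC : Params.FlowOk C), C.J = n + 1 →
        R.groups = (Control.groups c n).card → R.words.length = W.card →
        SlotsNear H R hC σ δ c n W → GamNear H R n →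
        ∃ N₁ : ℕ, ∀ N ≥ N₁, ∀ h : (R.params N).Ok,
          ∀ g : Growth.Plan (Fin d),
            (∀ l t, g.E l t = expoR (R.params N).shape (Lb.deg l) (Lb.wt l) t) →
            (∀ q, g.τ q = R.compB N q) →
            ∃ Ri : ℕ → (((j : ℕ) → EuclideanSpace ℝ (Fin d) →L[ℝ] V j) →ₗ[ℝ]
                (ℕ → Fin (ctrlPulses c n).n → ℝ)),
              (∀ q Z k, (k < R.first q ∨ R.first (q + 1) ≤ k) → Ri q Z k = 0) ∧
              (∀ q Z j, 1 ≤ j → j < C.J →
                ((Params.flow H h hC).Φ j (R.compA N q)).comp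
                  (FP.jump (Params.flow H h hC) (R.params N).slotPos (Ri q Z) (R.compA N q) (g.τ q)
                    (FP.frozen (Params.flow H h hC)
                      fun j => (Lb.map H j).comp (g.refFrame.Ψ (R.compA N q)))
                    (FP.frozenD (Params.flow H h hC)
                      fun j => (Lb.map H j).comp (g.refFrame.Ψ (R.compA N q))) j) = Z j) ∧
              ∀ q Z (r : ℕ → ℝ), (∀ j, j < C.J → ‖Z j‖ ≤ r j) → ∀ k l,
                |Ri q Z k l| ≤ K * Real.exp (Λ * (2 * R.L) * ((R.per q + (R.params N).N0 : ℕ) : ℝ) ^ 3) *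
                  ∑ j ∈ Finset.range C.J, r j := by
  obtain ⟨W, hnil, ε₀, hε₀, K, Λ, hK, hΛ, hB⟩ := composite_jump_main H σ δ hc hσ
    (fun a : Fin n => Lb.space H (a.val + 1)) (fun a v hv => Lb.inner_zonal_space H hv)
  refine ⟨W, hnil, K, Λ, hK, hΛ, fun R C hC hJ hG hWc hslot hgam => ?_⟩
  obtain ⟨N₁, hN₁⟩ := hslot ε₀ hε₀
  obtain ⟨N₂, hN₂⟩ := hgam ε₀ hε₀
  refine ⟨max N₁ N₂, fun N hN h g hE hτ => ?_⟩
  have hS : R.S = (Control.groups c n).card * W.card := by rw [Recipe.S, hG, hWc]
  set F := Params.flow H h hC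
  have hL0 : ∀ j, j = 0 ∨ C.J ≤ j →
      (Lb.map H j).comp (g.refFrame.Ψ (R.compA N 0)) = 0 ∧ Lb.map H j = 0 := fun j hj => by
    have hz : Lb.map H j = 0 := by
      refine ContinuousLinearMap.ext fun x => ?_
      rw [Lb.map_apply, zero_apply]
      refine Finset.sum_eq_zero fun l _ => ?_
      rw [Lb.vec_of_ne H, smul_zero]
      obtain ⟨h1, h2⟩ := hdeg l
      omega
    exact ⟨by rw [hz, ContinuousLinearMap.zero_comp], hz⟩
  have hq : ∀ q, ∃ Rq : ((j : ℕ) → EuclideanSpace ℝ (Fin d) →L[ℝ] V j) →ₗ[ℝ]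
      (ℕ → Fin (ctrlPulses c n).n → ℝ),
      (∀ Z k l, (k < R.first q ∨ R.first (q + 1) ≤ k) → Rq Z k l = 0) ∧
      (∀ Z j, 1 ≤ j → j < C.J → (F.Φ j (R.compA N q)).comp
        (FP.jump F (R.params N).slotPos (Rq Z) (R.compA N q) (R.compB N q)
          (FP.frozen F fun j => (Lb.map H j).comp (g.refFrame.Ψ (R.compA N q)))
          (FP.frozenD F fun j => (Lb.map H j).comp (g.refFrame.Ψ (R.compA N q))) j) = Z j) ∧
      ∀ Z (r : ℕ → ℝ), (∀ j, j < C.J → 0 ≤ r j) →
        (∀ j, j < C.J → ∀ x, ‖Z j x‖ ≤ r j * ‖ContinuousLinearMap.id ℝ (FP.EE d) x‖) →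
        ∀ k l, |Rq Z k l| ≤ K * 1 *
          Real.exp (Λ * (2 * R.L * ((R.per q + (R.params N).N0 : ℕ) : ℝ) ^ 3)) *
            ∑ j ∈ Finset.range C.J, r j := by
    intro q
    refine hB F hJ (d := d) (d' := d) (R.params N).slotPos (R.first q) (R.first (q + 1))
      (R.compA N q) (R.compB N q) (R.slotAt q) (R.slotTau N q) _ _
      (fun a => (gam H (Params.coeff H h (a.val + 1)) (qW (R.params N).shape (a.val + 1))
        (R.compA N q)).comp (Lb.space H (a.val + 1)).subtypeL)
      (fun a => (Lb.map H (a.val + 1)).codRestrict _ (Lb.map_mem_space H (a.val + 1)))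
      (labelCoords Lb H) (ContinuousLinearMap.id ℝ _) 1
      (fun k w => R.slotAt_mem hS q k w) (fun k h1 h2 => R.slot_mem N q k h1 h2)
      (fun k w => ?_) (fun k k' hk w w' => R.slotTau_ordered N q hk w w')
      (fun k w => hN₁ N (le_of_max_le_left hN) h q k w) ?_ (fun a => ?_) (fun a => ?_)
      (sum_labelCoords Lb hdeg) zero_le_one (fun a z => ?_)
    · obtain ⟨t1, t2⟩ := R.slotTau_mem hS N q k w
      rw [abs_of_nonneg t1]
      exact t2.trans (R.comp_length_le N q)
    · intro j hj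
      show (Lb.map H j).comp _ = 0
      rw [(hL0 j hj).2, ContinuousLinearMap.zero_comp]
    · exact frame_map Lb h g hE (a.val + 1) (R.compA N q)
    · have hg := hN₂ N (le_of_max_le_right hN) h q a
      refine le_trans (le_of_eq_of_le ?_ (ContinuousLinearMap.opNorm_comp_le
        (gam H (Params.coeff H h (a.val + 1)) (qW (R.params N).shape (a.val + 1))
          (R.compA N q) - 1) (Lb.space H (a.val + 1)).subtypeL)) ?_
      · refine congrArg norm ?_
        rw [ContinuousLinearMap.sub_comp]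
        rfl
      · exact (mul_le_of_le_one_right (norm_nonneg _) (Submodule.norm_subtypeL_le _)).trans hg
    · simpa using norm_labelCoords_le Lb a z
  choose Rq hsupp hright hle using hq
  refine ⟨Rq, fun q Z k hk => funext fun l => hsupp q Z k l hk, fun q Z j h1 h2 => ?_,
    fun q Z r hr k l => ?_⟩
  · rw [hτ q]
    exact hright q Z j h1 h2
  · refine (hle q Z r (fun j hj => (norm_nonneg _).trans (hr j hj))
      (fun j hj x => (Z j).le_of_opNorm_le (hr j hj) x) k l).trans (le_of_eq ?_)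
    rw [mul_one, mul_assoc Λ]

end

end Vale.Agent.P225.Assembly
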