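import Vale.Agent.P225.Control.Recipe
import Vale.Agent.P225.Control.SlotPrefix

/-!
P225, assembly: the slot of a group and a word in a composite, and its time from the start of the
composite.
-/

namespace Vale.Agent.P225.Sched

open Vale.Agent.P225.Control

noncomputable section

variable {c : ℝ} {n : ℕ} {W : Finset Word}

/-- The slot of `(h, w)` in composite `q`. -/
def Recipe.slotAt (R : Recipe) (q : ℕ) (h : Control.groups c n) (w : W) : ℕ :=
  R.first q + slotNo c n W h w

/-- The time of that slot from the start of the composite. -/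
def Recipe.slotTau (R : Recipe) (N q : ℕ) (h : Control.groups c n) (w : W) : ℝ :=
  (R.params N).slotPos (R.slotAt q h w) - R.compA N q

/-- Later groups come later. -/
theorem Recipe.slotTau_ordered (R : Recipe) (N q : ℕ) {h h' : Control.groups c n}
    (hlt : (h : ℝ) < h') (w w' : W) : R.slotTau N q h w ≤ R.slotTau N q h' w' := by
  have hmono : StrictMono (R.params N).slotPos := strictMono_nat_of_lt_succ fun k => by
    linarith [(R.params N).slotPos_gap (R.slotList_ne N) k]
  have := hmono.monotone (Nat.add_le_add_left (slotNo_lt_of_lt c n W hlt w w').le (R.first q))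
  simp only [Recipe.slotTau, Recipe.slotAt]
  linarith

variable (R : Recipe) (hS : R.S = (Control.groups c n).card * W.card)

include hS

theorem Recipe.slotAt_mem (q : ℕ) (h : Control.groups c n) (w : W) :
    R.first q ≤ R.slotAt q h w ∧ R.slotAt q h w < R.first (q + 1) := by
  refine ⟨Nat.le_add_right _ _, ?_⟩
  rw [Recipe.first, Nat.succ_mul, hS]
  simp only [Recipe.slotAt, Recipe.first]
  rw [hS]
  exact Nat.add_lt_add_left (slotNo_lt c n W h w) _

theorem Recipe.slotTau_mem (N q : ℕ) (h : Control.groups c n) (w : W) :
    0 ≤ R.slotTau N q h w ∧ R.slotTau N q h w ≤ R.compB N q - R.compA N q := by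
  obtain ⟨h1, h2⟩ := R.slotAt_mem hS q h w
  obtain ⟨a, b⟩ := R.slot_mem N q _ h1 h2
  unfold Recipe.slotTau
  constructor <;> linarith

omit hS

/-- A composite lasts `O(n ^ 3)`. -/
theorem Recipe.comp_length_le (N q : ℕ) :
    R.compB N q - R.compA N q ≤ 2 * R.L * ((R.per q + (R.params N).N0 : ℕ) : ℝ) ^ 3 := by
  have := start_composite_le R N q R.L le_rfl
  unfold Recipe.compB
  linarith

end

end Vale.Agent.P225.Sched
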