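import Vale.Agent.P225.FP.Defs
import Vale.Agent.P225.Sched.Norming

/-!
P225, assembly: a plan for the fixed point from a designed evolution of labels, its norming path
and right inverses of the jump maps in the frame of the composite starts.
-/

namespace Vale.Agent.P225.Assembly

open MeasureTheory

noncomputable section

section Right

variable {H : Harm} {sh : Shape} {C : FP.Consts} (F : FP.Flow H sh C) {P : Pulses}
  {E₁ E₂ : Type} [NormedAddCommGroup E₁] [NormedSpace ℝ E₁]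
  [NormedAddCommGroup E₂] [NormedSpace ℝ E₂]

/-- Composition on the right with an equivalence, as an equivalence. -/
def precompEquiv (B : E₁ ≃L[ℝ] E₂) (j : ℕ) : (E₂ →L[ℝ] V j) ≃L[ℝ] (E₁ →L[ℝ] V j) :=
  B.symm.arrowCongr (ContinuousLinearEquiv.refl ℝ (V j))

omit [NormedSpace ℝ E₁] in
theorem precompEquiv_apply [NormedSpace ℝ E₁] (B : E₁ ≃L[ℝ] E₂) (j : ℕ) (X : E₂ →L[ℝ] V j) :
    precompEquiv B j X = X.comp (B : E₁ →L[ℝ] E₂) := by
  ext x; simp [precompEquiv]

/-- The jump is natural in the parameter space. -/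
theorem jump_frozen_comp (pos : ℕ → ℝ) (θ : ℕ → Fin P.n → ℝ) (a b : ℝ) (B : E₁ ≃L[ℝ] E₂)
    (X : (j : ℕ) → E₂ →L[ℝ] V j) (j : ℕ) :
    FP.jump F pos θ a b (FP.frozen F fun j => (X j).comp (B : E₁ →L[ℝ] E₂))
        (FP.frozenD F fun j => (X j).comp (B : E₁ →L[ℝ] E₂)) j =
      (FP.jump F pos θ a b (FP.frozen F X) (FP.frozenD F X) j).comp (B : E₁ →L[ℝ] E₂) := by
  rw [← precompEquiv_apply B j, FP.jump, FP.jump]
  simp only [intervalIntegral, map_sub]
  rw [← ContinuousLinearEquiv.integral_comp_comm, ← ContinuousLinearEquiv.integral_comp_comm]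
  have key : ∀ t, (F.Ω j t).comp (FP.forceOp H sh pos θ
        (FP.frozen F fun j => (X j).comp (B : E₁ →L[ℝ] E₂))
        (FP.frozenD F fun j => (X j).comp (B : E₁ →L[ℝ] E₂)) j t) =
      precompEquiv B j ((F.Ω j t).comp
        (FP.forceOp H sh pos θ (FP.frozen F X) (FP.frozenD F X) j t)) := by
    intro t
    rw [precompEquiv_apply, ContinuousLinearMap.comp_assoc, ← precompEquiv_apply B j]
    congr 1
    rw [FP.forceOp, FP.forceOp, (precompEquiv B j).map_tsum]
    refine tsum_congr fun n => ?_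
    simp only [map_sum, map_smul, precompEquiv_apply]
    refine Finset.sum_congr rfl fun l _ => congrArg _ (Finset.sum_congr rfl fun i _ => ?_)
    ext x
    unfold FP.pulseOp
    cases (P.item l).kind <;> simp [FP.frozen, FP.frozenD]
  simp only [key]

end Right

/-- What a plan is built from. -/
structure PlanData {H : Harm} {sh : Shape} {C : FP.Consts} (F : FP.Flow H sh C) (P : Pulses)
    (d : ℕ) (g : Growth.Plan (Fin d)) where
  /-- Slot start times. -/
  pos : ℕ → ℝ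
  pos_start : 1 ≤ pos 0
  pos_gap : ∀ n, pos n + 1 ≤ pos (n + 1)
  /-- First slots of the composites. -/
  first : ℕ → ℕ
  first_zero : first 0 = 0
  first_mono : StrictMono first
  /-- Composite starts. -/
  a : ℕ → ℝ
  slot_mem : ∀ c n, first c ≤ n → n < first (c + 1) → a c ≤ pos n ∧ pos n + 1 ≤ g.τ c
  order : ∀ c, g.τ c ≤ a (c + 1)
  /-- The windows of the transvections. -/
  W : Growth.Plan.Windows g
  lo_eq : ∀ c, W.lo c = a c
  S_le : W.S ≤ 1
  /-- The vectors of the labels. -/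
  L : (j : ℕ) → EuclideanSpace ℝ (Fin d) →L[ℝ] V j
  L_off : ∀ j, j = 0 ∨ C.J ≤ j → L j = 0
  /-- The bound for the regular solutions against the scalar model. -/
  KΓ : ℝ
  KΓ_pos : 0 < KΓ
  L_le : ∀ j, j < C.J → ∀ t l,
    ‖F.Φ j t (L j (EuclideanSpace.single l 1))‖ ≤ KΓ * Real.exp (g.E l t)
  K_big : KΓ * d * Real.exp 1 ≤ C.K ∧ Real.exp 3 ≤ C.K
  E_lo : ∀ l s t, s ≤ t → 1 / 2 * (t - s) ≤ g.E l t - g.E l s
  E_up : ∀ l s t, s ≤ t → g.E l t - g.E l s ≤ C.Λ * (t - s)
  E_cont : ∀ l, Continuous (g.E l)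
  /-- The weight of smallness. -/
  κ : ℝ → ℝ
  κ_cont : Continuous κ
  κ_nonneg : ∀ t, 0 ≤ κ t
  κ_lip : ∀ s t, |κ s - κ t| ≤ |s - t| / 4
  /-- Right inverses in the frame of the composite starts. -/
  R : ℕ → ((j : ℕ) → EuclideanSpace ℝ (Fin d) →L[ℝ] V j) →ₗ[ℝ] (ℕ → Fin P.n → ℝ)
  /-- Their norms. -/
  ρ : ℕ → ℝ
  ρ_nonneg : ∀ c, 0 ≤ ρ c
  R_supp : ∀ c Z n, (n < first c ∨ first (c + 1) ≤ n) → R c Z n = 0
  R_right : ∀ c Z j, 1 ≤ j → j < C.J →
    (F.Φ j (a c)).comp (FP.jump F pos (R c Z) (a c) (g.τ c)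
      (FP.frozen F fun j => (L j).comp (g.refFrame.Ψ (a c)))
      (FP.frozenD F fun j => (L j).comp (g.refFrame.Ψ (a c))) j) = Z j
  R_le : ∀ c Z (r : ℕ → ℝ), (∀ j, j < C.J → ‖Z j‖ ≤ r j) →
    ∀ n l, |R c Z n l| ≤ ρ c * ∑ j ∈ Finset.range C.J, r j
  /-- The smallness. -/
  ε : ℝ
  dX_small : ∀ c, ∀ t ∈ Set.Icc (a c) (g.τ c),
    KΓ * d * (W.ε c * Real.exp 1) ≤ ε * Real.exp (-(κ t / 2))
  ρ_small : ∀ c, ρ c *
    Real.exp ((4 * C.Γ + 4 * C.Λ + 2) * (g.τ c - a c)) * Real.exp (-(κ (a c) / 2)) ≤ ε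
  len_small : ∀ c, (4 * C.Γ + 4 * C.Λ + 2) * (g.τ c - a c) ≤ κ (a c) / 2
  target_small : ∀ c,
    ρ c * (C.J * (KΓ * d * (W.ε c * Real.exp 1))) ≤ ε * Real.exp (-κ (a c))

namespace PlanData

variable {H : Harm} {sh : Shape} {C : FP.Consts} {F : FP.Flow H sh C} {P : Pulses} {d : ℕ}
  {g : Growth.Plan (Fin d)} (D : PlanData F P d g)

/-- The designed values. -/
def X (c j : ℕ) : EuclideanSpace ℝ (Fin d) →L[ℝ] V j := (D.L j).comp (g.X g.refFrame c)

theorem path_pathInv (t : ℝ) : (g.path t).comp (g.pathInv t) =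
    ContinuousLinearMap.id ℝ (EuclideanSpace ℝ (Fin d)) := by
  have h : (g.pathInv t).toLinearMap * (g.path t).toLinearMap = 1 :=
    LinearMap.ext fun x => by simpa using DFunLike.congr_fun (g.pathInv_path t) x
  have h' := mul_eq_one_comm.1 h
  exact ContinuousLinearMap.ext fun x => by simpa using DFunLike.congr_fun h' x

/-- The path at one time, as an equivalence. -/
def pathEquiv (t : ℝ) : EuclideanSpace ℝ (Fin d) ≃L[ℝ] EuclideanSpace ℝ (Fin d) :=
  ContinuousLinearEquiv.equivOfInverse (g.path t) (g.pathInv t)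
    (fun x => by simpa using DFunLike.congr_fun (g.pathInv_path t) x)
    (fun x => by simpa using DFunLike.congr_fun (path_pathInv (g := g) t) x)

/-- Composite `c` lies in the window of transvection `c`. -/
theorem before (D : PlanData F P d g) (c : ℕ) :
    (∀ c', c = c' + 1 → g.τ c' ≤ D.a c) ∧ D.a c ≤ g.τ c - 1 :=
  ⟨fun c' h => h ▸ D.order c', D.lo_eq c ▸ D.W.lo_le c⟩

/-- The designed values at the start of their composite. -/
theorem X_start (c : ℕ) :
    g.X g.refFrame c = (g.refFrame.Ψ (D.a c)).comp (g.path (D.a c)) := by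
  obtain ⟨h1, h2⟩ := D.before c
  ext1 x
  have h := D.W.ref_X_pathInv h1 (by linarith) (g.path (D.a c) x)
  rw [g.ramp_eq_zero h2, zero_smul, sub_zero] at h
  have hx : g.pathInv (D.a c) (g.path (D.a c) x) = x := by
    simpa using DFunLike.congr_fun (g.pathInv_path (D.a c)) x
  rw [hx] at h
  rw [ContinuousLinearMap.comp_apply, ← h, g.refFrame.ΨΦ]

theorem label_le {j : ℕ} (hj : j < C.J) (t : ℝ) (l : Fin d) :
    ‖((D.KΓ⁻¹ : ℝ) • (F.Φ j t).comp (D.L j)) (EuclideanSpace.single l 1)‖ ≤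
      Real.exp (g.E l t) := by
  rw [smul_apply, norm_smul, Real.norm_eq_abs, abs_inv,
    abs_of_pos D.KΓ_pos, inv_mul_le_iff₀ D.KΓ_pos]
  exact D.L_le j hj t l

theorem norm_phys {j : ℕ} (hj : j < C.J) (t : ℝ)
    (T : EuclideanSpace ℝ (Fin d) →L[ℝ] EuclideanSpace ℝ (Fin d)) {B : ℝ}
    (hB : ∀ (A : EuclideanSpace ℝ (Fin d) →L[ℝ] V j),
      (∀ l, ‖A (EuclideanSpace.single l 1)‖ ≤ Real.exp (g.E l t)) → ‖A.comp T‖ ≤ B) :
    ‖((F.Φ j t).comp (D.L j)).comp T‖ ≤ D.KΓ * B := by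
  have h := hB _ (D.label_le hj t)
  rw [ContinuousLinearMap.smul_comp, norm_smul, Real.norm_eq_abs, abs_inv,
    abs_of_pos D.KΓ_pos, inv_mul_le_iff₀ D.KΓ_pos] at h
  exact h

theorem X_bound {c j : ℕ} (hj : j < C.J) {t : ℝ} (h2 : t ≤ g.τ c)
    (h1 : ∀ c', c = c' + 1 → g.τ c' ≤ t) :
    ‖((F.Φ j t).comp (D.X c j)).comp (g.pathInv t)‖ ≤ D.KΓ * (d * Real.exp 1) := by
  have e : ((F.Φ j t).comp (D.X c j)).comp (g.pathInv t) =
      ((F.Φ j t).comp (D.L j)).comp ((g.X g.refFrame c).comp (g.pathInv t)) := by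
    simp only [X, ContinuousLinearMap.comp_assoc]
  rw [e]
  refine (D.norm_phys hj t _ fun A hA => ?_)
  refine (D.W.X_le h1 h2 A hA).trans ?_
  rw [Fintype.card_fin]
  gcongr
  exact D.S_le

theorem dX_bound {c j : ℕ} (hj : j < C.J) {t : ℝ} (ht : t ∈ Set.Icc (D.a c) (g.τ c)) :
    ‖((F.Φ j t).comp (D.X (c + 1) j - D.X c j)).comp (g.pathInv t)‖ ≤
      D.KΓ * d * (D.W.ε c * Real.exp 1) := by
  have e : ((F.Φ j t).comp (D.X (c + 1) j - D.X c j)).comp (g.pathInv t) =
      ((F.Φ j t).comp (D.L j)).comp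
        ((g.X g.refFrame (c + 1) - g.X g.refFrame c).comp (g.pathInv t)) := by
    ext x; simp [X]
  rw [e, mul_assoc]
  refine (D.norm_phys hj t _ fun A hA => ?_)
  refine (D.W.dX_le (by rwa [D.lo_eq]) A hA).trans ?_
  rw [Fintype.card_fin]
  gcongr
  · exact D.W.ε_nonneg c
  · exact D.S_le

/-- Targets in the frame of the start of composite `c`. -/
def local' (c : ℕ) : ((j : ℕ) → EuclideanSpace ℝ (Fin d) →L[ℝ] V j) →ₗ[ℝ]
    ((j : ℕ) → EuclideanSpace ℝ (Fin d) →L[ℝ] V j) where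
  toFun Y j := ((F.Φ j (D.a c)).comp (Y j)).comp (g.pathInv (D.a c))
  map_add' Y Y' := by funext j; ext x; simp
  map_smul' r Y := by funext j; ext x; simp

theorem op_of_le {E' : Type} [NormedAddCommGroup E'] [NormedSpace ℝ E'] (t : ℝ)
    (A : EuclideanSpace ℝ (Fin d) →L[ℝ] E') {r : ℝ} (hr : 0 ≤ r)
    (h : ∀ x, ‖A x‖ ≤ r * ‖g.path t x‖) : ‖A.comp (g.pathInv t)‖ ≤ r := by
  refine ContinuousLinearMap.opNorm_le_bound _ hr fun y => ?_
  have e := DFunLike.congr_fun (path_pathInv (g := g) t) y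
  simp only [ContinuousLinearMap.comp_apply, ContinuousLinearMap.id_apply] at e
  simpa [e] using h (g.pathInv t y)

theorem le_of_op {E' : Type} [NormedAddCommGroup E'] [NormedSpace ℝ E'] (t : ℝ)
    (A : EuclideanSpace ℝ (Fin d) →L[ℝ] E') {r : ℝ} (h : ‖A.comp (g.pathInv t)‖ ≤ r)
    (x : EuclideanSpace ℝ (Fin d)) : ‖A x‖ ≤ r * ‖g.path t x‖ := by
  have e : g.pathInv t (g.path t x) = x := by
    simpa using DFunLike.congr_fun (g.pathInv_path t) x
  have := (A.comp (g.pathInv t)).le_of_opNorm_le h (g.path t x)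
  simpa [e] using this

/-- The plan. -/
def plan : FP.Plan F P d d D.ε where
  pos := D.pos
  pos_start := D.pos_start
  pos_gap := D.pos_gap
  first := D.first
  first_zero := D.first_zero
  first_mono := D.first_mono
  a := D.a
  b := g.τ
  slot_mem := D.slot_mem
  order := D.order
  X := D.X
  X_off c j h := by simp [X, D.L_off j h]
  N := g.path
  N_cont := (D.W.continuous_path D.E_cont).1
  N_inj t x h := by
    have := DFunLike.congr_fun (g.pathInv_path t) x
    simpa [h] using this.symm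
  N_past t s hst x := by
    refine le_of_op t (g.path s) ((D.W.path_past D.E_lo t s hst).trans ?_) x
    refine mul_le_mul_of_nonneg_right (le_trans ?_ D.K_big.2) (Real.exp_pos _).le
    exact Real.exp_le_exp.2 (by linarith [D.S_le])
  N_future t s hts x := by
    refine le_of_op t (g.path s) ((D.W.path_future D.E_up t s hts).trans ?_) x
    refine mul_le_mul_of_nonneg_right (le_trans ?_ D.K_big.2) (Real.exp_pos _).le
    exact Real.exp_le_exp.2 (by linarith [D.S_le])
  κ := D.κ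
  κ_cont := D.κ_cont
  κ_nonneg := D.κ_nonneg
  κ_lip := D.κ_lip
  X_le c j hj t h2 h1 x := by
    refine le_trans (le_of_op t ((F.Φ j t).comp (D.X c j)) (D.X_bound hj h2 h1) x) ?_
    exact mul_le_mul_of_nonneg_right (by linarith [D.K_big.1]) (norm_nonneg _)
  dX_le c j hj t ht x :=
    le_of_op t ((F.Φ j t).comp (D.X (c + 1) j - D.X c j))
      ((D.dX_bound hj ht).trans (D.dX_small c t ht)) x
  R c := (D.R c).comp (D.local' c)
  ρ := D.ρ
  ρ_nonneg := D.ρ_nonneg
  R_supp c Y n hn := D.R_supp c _ n hn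
  R_right c Y j hj1 hj := by
    have h := D.R_right c (D.local' c Y) j hj1 hj
    have hX : D.X c = fun j => ((D.L j).comp (g.refFrame.Ψ (D.a c))).comp
        (pathEquiv (g := g) (D.a c) : EuclideanSpace ℝ (Fin d) →L[ℝ] _) := by
      funext i
      rw [X, D.X_start c, ContinuousLinearMap.comp_assoc]
      rfl
    rw [hX, jump_frozen_comp]
    have h' := congrArg (fun T => ((F.Φi j (D.a c)).comp T).comp (g.path (D.a c))) h
    simp only [local', LinearMap.coe_mk, AddHom.coe_mk, ← ContinuousLinearMap.comp_assoc,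
      F.Φi_Φ, ContinuousLinearMap.id_comp] at h'
    rw [ContinuousLinearMap.comp_assoc (Y j), g.pathInv_path, ContinuousLinearMap.comp_id] at h'
    exact h'
  R_le c Y r hr h n l := by
    refine D.R_le c (D.local' c Y) r (fun j hj => ?_) n l
    exact op_of_le (D.a c) ((F.Φ j (D.a c)).comp (Y j)) (hr j hj) (h j hj)
  ρ_small := D.ρ_small
  len_small := D.len_small
  target_small c n l := by
    refine le_trans (D.R_le c _ (fun _ => D.KΓ * d * (D.W.ε c * Real.exp 1)) (fun j hj => ?_) n l) ?_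
    · have ht : D.a c ∈ Set.Icc (D.a c) (g.τ c) := ⟨le_rfl, by linarith [(D.before c).2]⟩
      have := D.dX_bound hj ht
      rw [← norm_neg] at this
      refine le_trans (le_of_eq (congrArg norm ?_)) this
      ext x
      simp [local']
    · rw [Finset.sum_const, Finset.card_range, nsmul_eq_mul]
      exact D.target_small c

end PlanData

end

end Vale.Agent.P225.Assembly
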