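import Vale.Agent.P225.Assembly.LocalInverse
import Vale.Agent.P225.Control.Recipe
import Vale.Agent.P225.Control.SlotRound

/-!
P225, assembly: the slots of every composite are close to their limits.
-/

namespace Vale.Agent.P225.Assembly

open Vale.Agent.P225.Sched

noncomputable section

-- needed to find the operator norm on maps between products
set_option maxSynthPendingDepth 3

variable (H : Harm) {C : FP.Consts}

/-- The comparison and the round limit at the slots make every slot close to its limit. -/
theorem slotsNear (R : Recipe) (hC : Params.FlowOk C) {n : ℕ} (W : Finset Word)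
    (hG : R.groups = (Control.groups (64 / 49) n).card) (hW : R.words = Control.wordList W)
    (hcmp : CompareStmt H) :
    SlotsNear H R hC Control.sigmaB Control.deltaB (64 / 49) n W := by
  intro ε hε
  obtain ⟨N₁, h1⟩ := Control.exists_slot_round H R n hε
  obtain ⟨N₂, h2⟩ := Control.exists_slot_prefix H R hC n hcmp
    (fun j _ _ => Control.recipe_steps_prefix H j R) hε
  refine ⟨max N₁ N₂, fun N hN h q g w => ?_⟩
  obtain ⟨a1, a2, a3, a4⟩ := h1 N (le_of_max_le_left hN) h hC (R.slotAt q g w)
  have hS : Control.slotNo (64 / 49) n W g w < R.S := by
    rw [Recipe.S, hG, hW, Control.wordList_length]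
    exact Control.slotNo_lt _ _ W g w
  have hp : ∀ j, Sched.prefixOp H j ((composite R.groups R.words).take
        ((slotsOf (composite R.groups R.words)).getD (Control.slotNo (64 / 49) n W g w) 0)) =
          Control.wordOp H Control.sigmaB Control.deltaB (Control.undoWord w) j ∧
      Sched.prefixOpInv H j ((composite R.groups R.words).take
        ((slotsOf (composite R.groups R.words)).getD (Control.slotNo (64 / 49) n W g w) 0)) =
          Control.wordOp H Control.sigmaB Control.deltaB w j := fun j => by
    rw [hG, hW]
    exact Control.composite_prefix H j (64 / 49) n W g w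
  refine ⟨a1, a2, a3, a4, fun b => ?_, fun b => ?_⟩
  · rw [← (hp _).1]; exact (h2 N (le_of_max_le_right hN) h q _ hS b).1
  · rw [← (hp _).2]; exact (h2 N (le_of_max_le_right hN) h q _ hS b).2

end

end Vale.Agent.P225.Assembly
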