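import Vale.Agent.P225.Assembly.DesignInst
import Vale.Agent.P225.Assembly.Kappa

/-!
P225, assembly: the schedule part of the data of a plan for a design, and the choice of the
weight `κ` with all smallness conditions, uniformly in the composite, for large first size.
-/

namespace Vale.Agent.P225.Sched

open Set

noncomputable section

namespace Design

variable (D : Design)

/-- The size of the period of composite `c`. -/
def sizeAt (N c : ℕ) : ℝ := ((D.recipe.per c + (D.params N).N0 : ℕ) : ℝ)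

lemma period_le_compA (N c : ℕ) : (D.params N).P (D.recipe.per c) ≤ D.recipe.compA N c := by
  rw [D.compA_eq, Params.P, Params.start]
  refine (D.params N).time_strictMono.monotone ?_
  rw [← Nat.add_zero (D.begIdx c), ← D.per_len_add N c 0]
  omega

lemma τ_le_period (N c : ℕ) : (D.plan N).τ c ≤ (D.params N).P (D.recipe.per c + 1) := by
  rw [← D.compB_eq, Params.P, Params.start, Recipe.compB, Params.start]
  refine (D.params N).time_strictMono.monotone ?_
  have h := D.recipe.off_end_le (D.recipe.idx_lt c)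
  have hl : D.recipe.steps.length + 1 = (D.params N).len := (D.params N).len_eq.symm
  rw [recipe_params, Nat.succ_mul]
  omega

lemma τ_sub_compA_le (N c : ℕ) :
    (D.plan N).τ c - D.recipe.compA N c ≤ 2 * D.L * D.sizeAt N c ^ 3 := by
  have h := D.comp_time_le N c
  rw [sub_le_iff_le_add', D.compA_eq, sizeAt, D.recipe_per]
  exact h

lemma compA_le_τ (N c : ℕ) : D.recipe.compA N c ≤ (D.plan N).τ c := by
  rw [← D.compB_eq]
  linarith [D.recipe.compA_lt_compB N c]

lemma order (N c : ℕ) : (D.plan N).τ c ≤ D.recipe.compA N (c + 1) := by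
  rw [← D.compB_eq]
  exact D.recipe.compB_le N c

lemma slot_mem (N c n : ℕ) (h1 : D.recipe.first c ≤ n) (h2 : n < D.recipe.first (c + 1)) :
    D.recipe.compA N c ≤ (D.params N).slotPos n ∧
      (D.params N).slotPos n + 1 ≤ (D.plan N).τ c := by
  rw [← D.compB_eq]
  exact D.recipe.slot_mem N c n h1 h2

lemma slotPos_gap (N n : ℕ) : (D.params N).slotPos n + 1 ≤ (D.params N).slotPos (n + 1) :=
  (D.params N).slotPos_gap (D.recipe.slotList_ne N) n

/-- The weight of smallness and all smallness conditions of a plan, for large `N`. The right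
inverses may cost `K exp (A n ^ 3)`, the comparison `KΓ`. -/
theorem exists_small (Γ Λ KΓ A K : ℝ) (hK : 0 ≤ K) (J : ℕ) {ε : ℝ} (hε : 0 < ε) :
    ∃ c > (0 : ℝ), ∃ N₁ : ℕ, ∀ N, N₁ ≤ N → ∀ h : (D.params N).Ok,
      Continuous ((D.params N).kappa c) ∧ (∀ t, 0 ≤ (D.params N).kappa c t) ∧
      (∀ s t, |(D.params N).kappa c s - (D.params N).kappa c t| ≤ |s - t| / 4) ∧
      sumBd h ≤ 1 ∧
      (∀ k, ∀ t ∈ Icc (D.recipe.compA N k) ((D.plan N).τ k),
        KΓ * D.d * ((windows h).ε k * Real.exp 1) ≤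
          ε * Real.exp (-((D.params N).kappa c t / 2))) ∧
      (∀ k, K * Real.exp (A * D.sizeAt N k ^ 3) *
        Real.exp ((4 * Γ + 4 * Λ + 2) * ((D.plan N).τ k - D.recipe.compA N k)) *
          Real.exp (-((D.params N).kappa c (D.recipe.compA N k) / 2)) ≤ ε) ∧
      (∀ k, (4 * Γ + 4 * Λ + 2) * ((D.plan N).τ k - D.recipe.compA N k) ≤
        (D.params N).kappa c (D.recipe.compA N k) / 2) ∧
      ∀ k, K * Real.exp (A * D.sizeAt N k ^ 3) * (J * (KΓ * D.d * ((windows h).ε k * Real.exp 1))) ≤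
        ε * Real.exp (-(D.params N).kappa c (D.recipe.compA N k)) := by
  set B := |4 * Γ + 4 * Λ + 2| * (2 * D.L) with hB
  set U := |KΓ| * D.d * Real.exp 1 with hU
  set M := K + U + K * (J * U) with hM
  have hB0 : 0 ≤ B := by rw [hB]; positivity
  have hU0 : 0 ≤ U := by rw [hU]; positivity
  have hKJ : 0 ≤ K * (J * U) := by positivity
  have hM0 : 0 ≤ M := by rw [hM]; positivity
  obtain ⟨c, hc, -, hkap⟩ := exists_kappa D.steps one_pos
  obtain ⟨N₁, h1⟩ := hkap (|A| + B) M ε 0 hε
  refine ⟨c, hc, N₁ + 6 * D.T, fun N hN h => ?_⟩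
  obtain ⟨hcont, hnn, hlip, -, hlow, hupp⟩ := h1 N (by omega)
  refine ⟨hcont, hnn, hlip, D.sumBd_le_one h (by omega), ?_, ?_, ?_, ?_⟩
  all_goals intro k
  all_goals have hn0 : 0 ≤ D.sizeAt N k ^ 3 := pow_nonneg (Nat.cast_nonneg _) 3
  · intro t ht
    obtain h2 := hupp _ t (ht.2.trans (D.τ_le_period N k))
    have hk : 0 ≤ (D.params N).kappa c t := hnn t
    rw [D.windows_ε_eq]
    change |M| * D.sizeAt N k ^ 0 * Real.exp ((|A| + B) * D.sizeAt N k ^ 3) *
      Real.exp (-(1 * D.sizeAt N k ^ 6)) ≤ ε * Real.exp (-(D.params N).kappa c t) at h2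
    change KΓ * D.d * (Real.exp (-D.sizeAt N k ^ 6) * Real.exp 1) ≤ _
    rw [pow_zero, mul_one, abs_of_nonneg hM0, one_mul] at h2
    calc KΓ * D.d * (Real.exp (-D.sizeAt N k ^ 6) * Real.exp 1)
        ≤ U * 1 * Real.exp (-D.sizeAt N k ^ 6) := by
          rw [hU, mul_one]
          calc _ ≤ |KΓ| * D.d * (Real.exp (-D.sizeAt N k ^ 6) * Real.exp 1) := by
                gcongr; exact le_abs_self _
            _ = _ := by ring
      _ ≤ M * Real.exp ((|A| + B) * D.sizeAt N k ^ 3) * Real.exp (-D.sizeAt N k ^ 6) := by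
          gcongr
          · linarith
          · exact Real.one_le_exp (by positivity)
      _ ≤ ε * Real.exp (-(D.params N).kappa c t) := h2
      _ ≤ _ := by gcongr; linarith
  · obtain ⟨-, h2⟩ := hlow _ _ (D.period_le_compA N k)
    have hk : 0 ≤ (D.params N).kappa c (D.recipe.compA N k) := hnn _
    change |M| * D.sizeAt N k ^ 0 * Real.exp ((|A| + B) * D.sizeAt N k ^ 3) *
      Real.exp (-((D.params N).kappa c (D.recipe.compA N k) / 4)) ≤ ε at h2
    rw [pow_zero, mul_one, abs_of_nonneg hM0] at h2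
    refine le_trans ?_ h2
    rw [mul_assoc K, ← Real.exp_add]
    gcongr
    · linarith
    · have hlen : (4 * Γ + 4 * Λ + 2) * ((D.plan N).τ k - D.recipe.compA N k) ≤
          B * D.sizeAt N k ^ 3 := by
        rw [hB, mul_assoc |_|]
        exact mul_le_mul (le_abs_self _) (D.τ_sub_compA_le N k) (sub_nonneg.2 (D.compA_le_τ N k))
          (abs_nonneg _)
      nlinarith [le_abs_self A]
    · linarith
  · obtain ⟨h2, -⟩ := hlow _ _ (D.period_le_compA N k)
    have hk : 0 ≤ (D.params N).kappa c (D.recipe.compA N k) := hnn _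
    change (|A| + B) * D.sizeAt N k ^ 3 ≤ (D.params N).kappa c (D.recipe.compA N k) / 4 at h2
    have hlen : (4 * Γ + 4 * Λ + 2) * ((D.plan N).τ k - D.recipe.compA N k) ≤
        B * D.sizeAt N k ^ 3 := by
      rw [hB, mul_assoc |_|]
      exact mul_le_mul (le_abs_self _) (D.τ_sub_compA_le N k) (sub_nonneg.2 (D.compA_le_τ N k))
        (abs_nonneg _)
    nlinarith [mul_nonneg (abs_nonneg A) hn0]
  · have h2 := hupp _ _ ((D.compA_le_τ N k).trans (D.τ_le_period N k))
    rw [D.windows_ε_eq]
    change |M| * D.sizeAt N k ^ 0 * Real.exp ((|A| + B) * D.sizeAt N k ^ 3) *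
      Real.exp (-(1 * D.sizeAt N k ^ 6)) ≤
        ε * Real.exp (-(D.params N).kappa c (D.recipe.compA N k)) at h2
    rw [pow_zero, mul_one, abs_of_nonneg hM0, one_mul] at h2
    refine le_trans ?_ h2
    change K * Real.exp (A * D.sizeAt N k ^ 3) *
      (J * (KΓ * D.d * (Real.exp (-D.sizeAt N k ^ 6) * Real.exp 1))) ≤ _
    calc K * Real.exp (A * D.sizeAt N k ^ 3) *
          (J * (KΓ * D.d * (Real.exp (-D.sizeAt N k ^ 6) * Real.exp 1)))
        ≤ K * Real.exp ((|A| + B) * D.sizeAt N k ^ 3) *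
          (J * (|KΓ| * D.d * (Real.exp (-D.sizeAt N k ^ 6) * Real.exp 1))) := by
          refine le_trans (b := K * Real.exp (A * D.sizeAt N k ^ 3) *
            (J * (|KΓ| * D.d * (Real.exp (-D.sizeAt N k ^ 6) * Real.exp 1))))
            (mul_le_mul_of_nonneg_left ?_ (by positivity))
            (mul_le_mul_of_nonneg_right ?_ (by positivity))
          · gcongr; exact le_abs_self _
          · gcongr; linarith [le_abs_self A]
      _ = K * (J * U) * Real.exp ((|A| + B) * D.sizeAt N k ^ 3) *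
          Real.exp (-D.sizeAt N k ^ 6) := by rw [hU]; ring
      _ ≤ _ := by gcongr; linarith

end Design

end

end Vale.Agent.P225.Sched
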