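import Vale.Agent.P225.Assembly.Main
import Vale.Agent.P225.Assembly.FamilyInst
import Vale.Agent.P225.Assembly.Inputs
import Vale.Agent.P225.Control.Recipe
import Vale.Agent.P225.Sched.Compare.Main
import Vale.Agent.P225.FP.Solve
import Vale.Agent.P225.Harm.Build

/-!
P225, assembly: everything but the local right inverses put together.
-/

namespace Vale.Agent.P225.Assembly

open Sched

noncomputable section

/-- A design with local right inverses gives the counterexample. -/
theorem counterexample_of_local (H : Harm) {G : ℕ} {hG : 0 < G} {words : List Word}
    {hw : words ≠ []} (P : Pulses)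
    (hlocal : LocalInverse H (design G hG words hw) P (labelVec H)) : Counterexample := by
  obtain ⟨q, hq, hcyc, hmean⟩ := design_hyps (G := G) (hG := hG) (words := words) (hw := hw)
  have hclosed : ∀ j, 1 ≤ j → j < Jc →
      prefixOp H j (design G hG words hw).steps = 1 := fun j _ _ =>
    (Control.prefixOp_periodSteps H _ _ _ _).1
  exact counterexample_of H (design G hG words hw) FP.goal_holds (family_stmt H) P (labelVec H)
    design_J0 (slots_pos _) (slotLayout _) (scalarModel H (compareStmt H) hclosed) hlocal
    (labelVec_sep H) (labelVec_zero H) hq hcyc hmean
    (design_card (G := G) (hG := hG) (words := words) (hw := hw))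

end

end Vale.Agent.P225.Assembly
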