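import Vale.Agent.P225.Assembly.Top
import Vale.Agent.P225.Assembly.LocalInst

/-!
P225: the counterexample to the dimension comparison.
-/

namespace Vale.Agent.P225

noncomputable section

/-- Yau's dimension comparison fails in dimension four. -/
theorem counterexample : Counterexample := by
  obtain ⟨H⟩ := Sph.exists_harm
  obtain ⟨G, hG, w, hw, h⟩ :=
    Assembly.exists_localInverse_design H (Sched.compareStmt H) (n := 329) rfl
  exact Assembly.counterexample_of_local H _ h

end

end Vale.Agent.P225
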